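import Vale.Agent.P235.ST.H200.Piece

/-! P235, (ST) O(1), part B, rows r14 `lb_cut`, `inv_step` (helper200). -/

namespace Vale.Agent.P235.STO.H200

open SimpleGraph
open H188 (nxt_scale uns_le nxt_le nxt_attain)
open H611 (cost_append cost_reverse cost_bypass vert)
open H317 (Stretch stretches_of)

variable {V : Type}

/-- the first exit from the ball -/
theorem exit (W : LWorld V) {ρ : V → ℝ} (hρ : W.Scale ρ) {p q : V} (g : W.G.Walk p q) :
    (∀ z ∈ g.support, W.d p z ≤ kap * ρ p / 4 + 1) ∨
    ∃ (a : V) (g1 : W.G.Walk p a) (g2 : W.G.Walk a q), g = g1.append g2 ∧ 1 ≤ W.d p a ∧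
      kap * ρ p / 4 ≤ W.d p a ∧ ∀ z ∈ g1.support, W.d p z ≤ kap * ρ p / 4 + 1 := by
  have hk : 0 ≤ kap * ρ p / 4 := by
    have := hρ.nonneg p
    unfold kap
    positivity
  by_cases hex : ∃ z ∈ g.support, max (kap * ρ p / 4) 1 ≤ W.d p z
  · right
    obtain ⟨a, g1, g2, h1, h2, h3⟩ := first_cut (fun z => max (kap * ρ p / 4) 1 ≤ W.d p z) g hex
    have ha1 : 1 ≤ W.d p a := (le_max_right _ _).trans h2
    refine ⟨a, g1, g2, h1, ha1, (le_max_left _ _).trans h2, ?_⟩
    have hlt : ∀ z ∈ g1.support, z ≠ a → W.d p z < max (kap * ρ p / 4) 1 := fun z hz hne =>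
      not_le.1 (h3 z hz hne)
    have hmax : max (kap * ρ p / 4) 1 ≤ kap * ρ p / 4 + 1 := max_le (by linarith) (by linarith)
    intro z hz
    by_cases hza : z = a
    · subst hza
      have hne : p ≠ z := by
        rintro rfl
        unfold LWorld.d at ha1
        rw [SimpleGraph.dist_self] at ha1
        norm_num at ha1
      have hnil : ¬ g1.Nil := Walk.not_nil_of_ne hne
      have hadj := g1.adj_penultimate hnil
      have hpen : W.d p g1.penultimate < max (kap * ρ p / 4) 1 :=
        hlt _ (Walk.getVert_mem_support _ _) hadj.ne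
      have hstep : W.d p z ≤ W.d p g1.penultimate + 1 := by
        have e1 := d_tri W p g1.penultimate z
        have e2 : W.d g1.penultimate z ≤ 1 := by
          have := d_le_length W (Walk.cons hadj Walk.nil)
          simpa using this
        linarith
      rcases le_total (kap * ρ p / 4) 1 with h4 | h4
      · rw [max_eq_right h4] at hpen
        have h5 : W.d p g1.penultimate = 0 := by
          unfold LWorld.d at hpen ⊢
          have : W.G.dist p g1.penultimate < 1 := by exact_mod_cast hpen
          have h6 : W.G.dist p g1.penultimate = 0 := by omega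
          rw [h6]
          simp
        linarith
      · rw [max_eq_left h4] at hpen
        linarith
    · exact (hlt z hz hza).le.trans hmax
  · left
    push Not at hex
    intro z hz
    exact (hex z hz).le.trans (max_le (by linarith) (by linarith))

section main

variable [Fintype V] (W : LWorld V)

theorem piece' (hS : Stretch W) {ρ w : V → ℝ} (hρ : W.Scale ρ) (hw : W.Inv (W.nxt ρ) w) {p q : V}
    (g : W.G.Walk p q) (hg : g.IsPath) (hball : ∀ z ∈ g.support, W.d p z ≤ kap * ρ p / 4 + 1)
    (he : kap * ρ p / 4 ≤ W.d p q) : W.d p q / 240 ≤ cost w g := by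
  refine piece_of W hS hρ hw g hg hball (le_trans ?_ he)
  have := hρ.nonneg p
  unfold C1 d1 kap
  norm_num
  linarith

omit [Fintype V] in
theorem rho_step {ρ : V → ℝ} (hρ : W.Scale ρ) (p a : V) :
    kap * ρ a / 4 ≤ kap * ρ p / 4 + W.d p a / 4 := by
  have h1 := hρ.lip p a
  have h2 := neg_abs_le (ρ p - ρ a)
  have h3 : ρ a ≤ ρ p + W.d p a / kap := by linarith
  have hk : (0 : ℝ) < kap := by unfold kap; positivity
  have h4 : kap * ρ a ≤ kap * (ρ p + W.d p a / kap) := mul_le_mul_of_nonneg_left h3 hk.le
  have h5 : kap * (ρ p + W.d p a / kap) = kap * ρ p + W.d p a := by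
    field_simp
  linarith

theorem rough (hS : Stretch W) {ρ w : V → ℝ} (hρ : W.Scale ρ) (hw : W.Inv (W.nxt ρ) w) : ∀ (n : ℕ) {p q : V}
    (g : W.G.Walk p q), g.length ≤ n → g.IsPath →
    (W.d p q - kap * ρ p / 4 - 1) / 320 ≤ cost w g := by
  intro n
  induction n with
  | zero =>
    intro p q g hn hg
    have h0 := cost_nonneg w g
    have h1 := d_le_length W g
    have h2 : g.length = 0 := by omega
    rw [h2] at h1
    have h3 := hρ.nonneg p
    have h4 : 0 ≤ kap * ρ p / 4 := by unfold kap; positivity
    have : W.d p q ≤ 0 := by simpa using h1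
    linarith
  | succ n ih =>
    intro p q g hn hg
    have h0 := cost_nonneg w g
    rcases exit W hρ g with h1 | ⟨a, g1, g2, h1, h2, h3, h4⟩
    · have := h1 q g.end_mem_support
      linarith
    · subst h1
      have hlen : 1 ≤ g1.length := by
        have := d_le_length W g1
        exact_mod_cast h2.trans this
      rw [Walk.length_append] at hn
      have e1 := piece' W hS hρ hw g1 hg.of_append_left h4 h3
      have e2 := ih g2 (by omega) hg.of_append_right
      have e3 := rho_step W hρ p a
      have e4 := d_tri W p a q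
      rw [cost_append]
      linarith

/-- **r14**, from r11 -/
theorem lb_cut_of (hS : Stretch W) {ρ w : V → ℝ} (hρ : W.Scale ρ) (hw : W.Inv (W.nxt ρ) w) {p q : V}
    (g : W.G.Walk p q) (hg : g.IsPath) (he : C1 * d1 * ρ p ≤ W.d p q) :
    W.d p q / 960 ≤ cost w g := by
  have hd := d_nonneg W p q
  rcases exit W hρ g with h1 | ⟨a, g1, g2, h1, h2, h3, h4⟩
  · have := piece_of W hS hρ hw g hg h1 he
    linarith
  · subst h1
    have e1 := piece' W hS hρ hw g1 hg.of_append_left h4 h3
    have e2 := rough W hS hρ hw _ g2 le_rfl hg.of_append_right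
    have e3 := rho_step W hρ p a
    have e4 := d_tri W p a q
    have e5 := cost_nonneg w g2
    rw [cost_append]
    rcases le_total (W.d p q / 4) (W.d p a) with h5 | h5 <;> linarith

/-- **r14**, from r11 -/
theorem inv_step_of (hS : Stretch W) {ρ w v : V → ℝ} (hρ : W.Scale ρ) (hw : W.Inv (W.nxt ρ) w)
    (h1 : ∀ x y, W.G.Adj x y → |v x - v y| ≤ e1 * |w x - w y|)
    (h2 : ∀ x, |v x| ≤ e1 * ρ x) : W.Inv ρ (fun x => w x + v x) := by
  classical
  refine ⟨fun x y hxy => ?_, fun x => ?_, fun p q g he => ?_⟩
  · have h3 := hw.sign x y hxy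
    have h4 := h1 x y hxy
    have h5 : e1 * |w x - w y| ≤ 1 / 2 * |w x - w y| :=
      mul_le_mul_of_nonneg_right (by unfold e1; norm_num) (abs_nonneg _)
    have h6 := abs_le.1 (h4.trans h5)
    have h7 : w x + v x - (w y + v y) = (w x - w y) + (v x - v y) := by ring
    rw [h7]
    rcases pos_and_pos_or_neg_and_neg_of_mul_pos h3 with ⟨h8, h9⟩ | ⟨h8, h9⟩
    · rw [abs_of_pos h8] at h6
      exact mul_pos (by linarith [h6.1]) h9
    · rw [abs_of_neg h8] at h6
      exact mul_pos_of_neg_of_neg (by linarith [h6.2]) h9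
  · have h3 := hw.close x
    have h4 := h2 x
    have h5 := nxt_le W hρ x
    have h6 := hρ.nonneg x
    have h7 : |w x + v x - W.u x| ≤ |w x - W.u x| + |v x| := by
      have : w x + v x - W.u x = (w x - W.u x) + v x := by ring
      rw [this]
      exact abs_add_le _ _
    refine h7.trans ?_
    have h8 : 2 * e1 * W.nxt ρ x ≤ 2 * e1 * (16 * d1 * ρ x) :=
      mul_le_mul_of_nonneg_left h5 (by unfold e1; positivity)
    unfold e1 d1 at *
    norm_num at h3 h4 h8 ⊢
    linarith
  · have hcost : ∀ {x y : V} (k : W.G.Walk x y),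
        (1 - e1) * cost w k ≤ cost (fun x => w x + v x) k := by
      intro x y k
      induction k with
      | nil => simp [cost]
      | @cons a b c hab k ih =>
        show (1 - e1) * (|w a - w b| + cost w k) ≤
          |w a + v a - (w b + v b)| + cost (fun x => w x + v x) k
        have h3 := h1 a b hab
        have h4 : |w a - w b| ≤ |w a + v a - (w b + v b)| + |v a - v b| := by
          have : w a - w b = (w a + v a - (w b + v b)) - (v a - v b) := by ring
          rw [this]
          exact abs_sub _ _
        have h5 : (1 - e1) * (|w a - w b| + cost w k) =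
          |w a - w b| - e1 * |w a - w b| + (1 - e1) * cost w k := by ring
        rw [h5]
        linarith
    have hb := cost_bypass (fun x => w x + v x) g
    have h3 := lb_cut_of W hS hρ hw g.bypass g.bypass_isPath he
    have h4 := hcost g.bypass
    have h5 : (1 - e1) * (W.d p q / 960) ≤ (1 - e1) * cost w g.bypass :=
      mul_le_mul_of_nonneg_left h3 (by unfold e1; norm_num)
    have h6 := d_nonneg W p q
    unfold e1 at h4 h5
    unfold c2
    norm_num at h4 h5 ⊢
    linarith

end main

end Vale.Agent.P235.STO.H200
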