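import Vale.Agent.P235.ST.H200.Stretch
import Vale.Agent.P235.ST.H200.Cut

/-! P235, (ST) O(1), part B: rows r11-r14 without hypotheses (helper200). -/

namespace Vale.Agent.P235.STO.H200

open SimpleGraph

variable {V : Type} [Fintype V] (W : LWorld V)

theorem stretches {ρ w : V → ℝ} (hρ : W.Scale ρ) (hw : W.Inv (W.nxt ρ) w) {p a b : V}
    {k m : ℕ} (g : W.G.Walk a b) (hg : g.IsPath) (hr : W.Reg ρ p k m g) (ha : a ∈ W.N)
    (hb : b ∈ W.N) :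
    (W.D k m b : ℝ) ≤ W.D k m a + (5 / 4) * cost w g + 64 * d1 * ρ p :=
  H317.stretches_of W (stretch W) hρ hw g hg hr ha hb

theorem piece {ρ w : V → ℝ} (hρ : W.Scale ρ) (hw : W.Inv (W.nxt ρ) w) {p q : V}
    (g : W.G.Walk p q) (hg : g.IsPath) (hball : ∀ z ∈ g.support, W.d p z ≤ kap * ρ p / 4 + 1)
    (he : C1 * d1 * ρ p ≤ W.d p q) : W.d p q / 240 ≤ cost w g :=
  piece_of W (stretch W) hρ hw g hg hball he

theorem lb_cut {ρ w : V → ℝ} (hρ : W.Scale ρ) (hw : W.Inv (W.nxt ρ) w) {p q : V}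
    (g : W.G.Walk p q) (hg : g.IsPath) (he : C1 * d1 * ρ p ≤ W.d p q) :
    W.d p q / 960 ≤ cost w g :=
  lb_cut_of W (stretch W) hρ hw g hg he

theorem inv_step {ρ w v : V → ℝ} (hρ : W.Scale ρ) (hw : W.Inv (W.nxt ρ) w)
    (h1 : ∀ x y, W.G.Adj x y → |v x - v y| ≤ e1 * |w x - w y|)
    (h2 : ∀ x, |v x| ≤ e1 * ρ x) : W.Inv ρ (fun x => w x + v x) :=
  inv_step_of W (stretch W) hρ hw h1 h2

end Vale.Agent.P235.STO.H200
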