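import Vale.Agent.P235.ST.H317.R12
import Vale.Agent.P235.ST.H119.Clock
import Vale.Agent.P235.ST.H188.RowsPlan
import Vale.Agent.P235.ST.H611.Cost

/-! P235, (ST) O(1), part B, row r13 `piece` (helper200). -/

namespace Vale.Agent.P235.STO.H200

open SimpleGraph
open H119 (reach_of_walk bi_of_reach D_T)
open H188 (nxt_scale uns_le nxt_le nxt_attain)
open H611 (cost_append cost_reverse vert)
open H317 (Stretch stretches_of)

variable {V : Type}

section walk

variable {G : SimpleGraph V}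

/-- cut a walk at the first vertex with `P` -/
theorem first_cut (P : V → Prop) : ∀ {p q : V} (g : G.Walk p q), (∃ z ∈ g.support, P z) →
    ∃ (a : V) (g1 : G.Walk p a) (g2 : G.Walk a q), g = g1.append g2 ∧ P a ∧
      ∀ z ∈ g1.support, z ≠ a → ¬ P z := by
  classical
  intro p q g
  induction g with
  | nil =>
    rintro ⟨z, hz, hP⟩
    rw [Walk.support_nil, List.mem_singleton] at hz
    subst hz
    exact ⟨_, Walk.nil, Walk.nil, rfl, hP, fun y hy hne => absurd (by simpa using hy) hne⟩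
  | @cons x y q hadj g ih =>
    intro hz
    by_cases hx : P x
    · exact ⟨x, Walk.nil, Walk.cons hadj g, rfl, hx,
        fun y hy hne => absurd (by simpa using hy) hne⟩
    · have : ∃ z ∈ g.support, P z := by
        obtain ⟨z, hz, hP⟩ := hz
        rw [Walk.support_cons, List.mem_cons] at hz
        rcases hz with rfl | hz
        · exact absurd hP hx
        · exact ⟨z, hz, hP⟩
      obtain ⟨a, g1, g2, h1, h2, h3⟩ := ih this
      refine ⟨a, Walk.cons hadj g1, g2, by rw [h1]; rfl, h2, fun z hz hne => ?_⟩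
      rw [Walk.support_cons, List.mem_cons] at hz
      rcases hz with rfl | hz
      · exact hx
      · exact h3 z hz hne

theorem cost_nonneg (w : V → ℝ) {x y : V} (p : G.Walk x y) : 0 ≤ cost w p := by
  induction p with
  | nil => exact le_rfl
  | cons h p ih => exact add_nonneg (abs_nonneg _) ih

/-- two vertices of a walk are joined by a part of it -/
theorem exists_part (w : V → ℝ) {p q a b : V} (g : G.Walk p q) (ha : a ∈ g.support)
    (hb : b ∈ g.support) : (∃ g' : G.Walk a b, cost w g' ≤ cost w g) ∨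
      ∃ g' : G.Walk b a, cost w g' ≤ cost w g := by
  classical
  have h1 := g.take_spec ha
  have hc : cost w (g.takeUntil a ha) + cost w (g.dropUntil a ha) = cost w g := by
    rw [← cost_append, h1]
  have hb' : b ∈ ((g.takeUntil a ha).append (g.dropUntil a ha)).support := by rw [h1]; exact hb
  rw [Walk.mem_support_append_iff] at hb'
  rcases hb' with hb' | hb'
  · right
    refine ⟨(g.takeUntil a ha).dropUntil b hb', ?_⟩
    have h2 : cost w ((g.takeUntil a ha).takeUntil b hb') +
        cost w ((g.takeUntil a ha).dropUntil b hb') = cost w (g.takeUntil a ha) := by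
      rw [← cost_append, Walk.take_spec]
    have h3 := cost_nonneg w ((g.takeUntil a ha).takeUntil b hb')
    have h4 := cost_nonneg w (g.dropUntil a ha)
    linarith
  · left
    refine ⟨(g.dropUntil a ha).takeUntil b hb', ?_⟩
    have h2 : cost w ((g.dropUntil a ha).takeUntil b hb') +
        cost w ((g.dropUntil a ha).dropUntil b hb') = cost w (g.dropUntil a ha) := by
      rw [← cost_append, Walk.take_spec]
    have h3 := cost_nonneg w ((g.dropUntil a ha).dropUntil b hb')
    have h4 := cost_nonneg w (g.takeUntil a ha)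
    linarith

end walk

theorem d_nonneg (W : LWorld V) (x y : V) : 0 ≤ W.d x y := Nat.cast_nonneg _

theorem d_comm (W : LWorld V) (x y : V) : W.d x y = W.d y x := by
  unfold LWorld.d; rw [SimpleGraph.dist_comm]

theorem d_tri (W : LWorld V) (x y z : V) : W.d x z ≤ W.d x y + W.d y z := by
  unfold LWorld.d
  exact_mod_cast W.conn.dist_triangle

theorem d_le_length (W : LWorld V) {x y : V} (g : W.G.Walk x y) : W.d x y ≤ g.length := by
  unfold LWorld.d
  exact_mod_cast SimpleGraph.dist_le g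

theorem rho_ball (W : LWorld V) {ρ : V → ℝ} (hρ : W.Scale ρ) {p z : V}
    (hz : W.d p z ≤ kap * ρ p / 4 + 1) : ρ z ≤ 5 / 4 * ρ p + 2 ^ 22 := by
  have h1 := hρ.lip p z
  have h2 : W.d p z / kap ≤ (kap * ρ p / 4 + 1) / kap :=
    div_le_div_of_nonneg_right hz (by unfold kap; positivity)
  have h3 : (kap * ρ p / 4 + 1) / kap = ρ p / 4 + 2 ^ 22 := by
    unfold kap; field_simp
  have h4 := neg_abs_le (ρ p - ρ z)
  rw [h3] at h2
  linarith

/-- small scales: the next scale vanishes -/
theorem nxt_zero [Fintype V] (W : LWorld V) {ρ : V → ℝ} (hρ : W.Scale ρ) {z : V}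
    (hz : ρ z < 2 ^ 102) : W.nxt ρ z = 0 := by
  by_contra hne
  have hpos : 0 < W.nxt ρ z := lt_of_le_of_ne ((nxt_scale W ρ).nonneg z) (Ne.symm hne)
  obtain ⟨z', y', hu, he⟩ := nxt_attain W hpos
  have h1 := uns_le W hρ hu
  have h2 : r0 ≤ W.d z' y' := hu.2.2.2.2.1
  have h3 := hρ.lip z z'
  have h4 : W.d z z' / kap < W.d z' y' := by linarith
  have h5 := neg_abs_le (ρ z - ρ z')
  have h6 : ρ z' < ρ z + W.d z' y' := by linarith
  unfold r0 at h2
  unfold d1 at h1
  have h7 : ρ z' < 2 ^ 102 + 16 * (1 / 2 ^ 100) * ρ z' := by linarith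
  have h8 : (2 : ℝ) ^ 90 ≤ 16 * (1 / 2 ^ 100) * ρ z' := h2.trans h1
  norm_num at h7 h8
  linarith


theorem cost_length (W : LWorld V) {w : V → ℝ} : ∀ {x y : V} (g : W.G.Walk x y),
    (∀ z ∈ g.support, w z = W.u z) → (g.length : ℝ) ≤ cost w g := by
  intro x y g
  induction g with
  | nil => intro _; simp [cost]
  | @cons a b c hab g ih =>
    intro h
    have h1 := ih fun z hz => h z (by rw [Walk.support_cons]; exact List.mem_cons_of_mem _ hz)
    have h2 := h a (by simp)
    have h3 := h b (by simp)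
    have h4 : |w a - w b| = 1 := by
      rw [h2, h3]
      have := W.unit a b hab
      exact_mod_cast this
    rw [Walk.length_cons]
    push_cast
    show _ ≤ |w a - w b| + cost w g
    linarith

theorem exists_band (W : LWorld V) (k : ℕ) (u0 : ℤ) : ∃ m < 16, ∃ t : ℤ, ∀ z, u0 ≤ W.u z →
    W.u z ≤ u0 + 2 ^ k → W.bi k m z = t ∧ 6 * 2 ^ k ≤ W.pos k m z ∧ W.pos k m z ≤ 9 * 2 ^ k := by
  set K : ℤ := 2 ^ k with hK
  have hK0 : 0 < K := by positivity
  have h1 := Int.emod_add_mul_ediv u0 K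
  have h2 := Int.emod_nonneg u0 hK0.ne'
  have h3 := Int.emod_lt_of_pos u0 hK0
  set s := u0 / K with hs
  set r := u0 % K with hr
  have h4 := Int.emod_add_mul_ediv (6 - s) 16
  have h5 := Int.emod_nonneg (6 - s) (by norm_num : (16 : ℤ) ≠ 0)
  have h6 := Int.emod_lt_of_pos (6 - s) (by norm_num : (0 : ℤ) < 16)
  set m0 := (6 - s) % 16 with hm0
  set t0 := (6 - s) / 16 with ht0
  refine ⟨m0.toNat, by omega, -t0, fun z hz1 hz2 => ?_⟩
  have hm : ((m0.toNat : ℕ) : ℤ) = m0 := Int.toNat_of_nonneg h5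
  have key : (W.u z + (m0.toNat : ℤ) * 2 ^ k) / (16 * K) = -t0 ∧
      (W.u z + (m0.toNat : ℤ) * 2 ^ k) % (16 * K) = 6 * K + r + (W.u z - u0) := by
    rw [Int.ediv_emod_unique (by positivity), hm, ← hK]
    refine ⟨?_, by linarith, by linarith⟩
    have h7 : s + m0 = 6 - 16 * t0 := by linarith
    calc 6 * K + r + (W.u z - u0) + 16 * K * -t0 = K * (6 - 16 * t0) + r + W.u z - u0 := by ring
      _ = K * (s + m0) + r + W.u z - u0 := by rw [h7]
      _ = (r + K * s) + m0 * K + W.u z - u0 := by ring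
      _ = W.u z + m0 * K := by rw [h1]; ring
  refine ⟨key.1, ?_⟩
  have h8 : W.pos k m0.toNat z = 6 * K + r + (W.u z - u0) := key.2
  rw [h8]
  constructor <;> linarith

section main

variable [Fintype V] (W : LWorld V)

theorem piece_vert {ρ w : V → ℝ} (hρ : W.Scale ρ) (hw : W.Inv (W.nxt ρ) w) {p q : V}
    (g : W.G.Walk p q) (hball : ∀ z ∈ g.support, W.d p z ≤ kap * ρ p / 4 + 1)
    (hbig : 2 ^ 100 ≤ ρ p) (he : C1 * d1 * ρ p ≤ W.d p q) {a b : V} (ha : a ∈ g.support)
    (hb : b ∈ g.support) :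
    (31 / 32) * |(W.u b : ℝ) - W.u a| - W.d p q / 2 ^ 100 ≤ cost w g := by
  have key : ∀ z ∈ g.support, 8 * e1 * W.nxt ρ z ≤ W.d p q / 2 ^ 100 := by
    intro z hz
    have h1 := rho_ball W hρ (hball z hz)
    have h2 := nxt_le W hρ z
    have h3 : 16 * d1 * ρ z ≤ 16 * d1 * (2 * ρ p) := by
      refine mul_le_mul_of_nonneg_left ?_ (by unfold d1; positivity)
      norm_num at h1 hbig ⊢
      linarith
    unfold d1 at h2 h3 he
    unfold C1 at he
    unfold e1
    norm_num at h2 h3 he ⊢
    linarith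
  rcases exists_part w g ha hb with ⟨g', h1⟩ | ⟨g', h1⟩
  · have h2 := vert W (nxt_scale W ρ) hw g'
    have h3 := key a ha
    linarith
  · have h2 := vert W (nxt_scale W ρ) hw g'
    have h3 := key b hb
    rw [abs_sub_comm] at h2
    linarith

theorem piece_zero {ρ w : V → ℝ} (hρ : W.Scale ρ) (hw : W.Inv (W.nxt ρ) w) {p q : V}
    (g : W.G.Walk p q) (hball : ∀ z ∈ g.support, W.d p z ≤ kap * ρ p / 4 + 1)
    (hsmall : ρ p < 2 ^ 100) : W.d p q ≤ cost w g := by
  refine (d_le_length W g).trans (cost_length W g fun z hz => ?_)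
  have h1 := rho_ball W hρ (hball z hz)
  have h2 : W.nxt ρ z = 0 := nxt_zero W hρ (by norm_num at h1 hsmall ⊢; linarith)
  have h3 := hw.close z
  rw [h2, mul_zero] at h3
  exact sub_eq_zero.1 (abs_nonpos_iff.1 h3)

/-- the middle part, from left to right -/
theorem piece_mid (hS : Stretch W) {ρ w : V → ℝ} (hρ : W.Scale ρ) (hw : W.Inv (W.nxt ρ) w) {p a b : V} {k m : ℕ}
    (g : W.G.Walk a b) (hg : g.IsPath) (hr : W.Reg ρ p k m g) (ha : a ∈ W.N) (hb : b ∈ W.N)
    (hi : W.idx a ≤ W.idx b) :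
    W.d a b ≤ (5 / 4) * cost w g + 64 * d1 * ρ p + 2 * (th k : ℝ) := by
  have h1 := stretches_of W hS hρ hw g hg hr ha hb
  have h2 := reach_of_walk W k m g hr.same
  have h3 := D_T W k m ha hb h2.1 hi
  have h4 := (bi_of_reach W k m h2.1).2
  have h5 : (W.D k m a : ℝ) + (W.Bg k m).dist a b ≤ W.D k m b + 2 * (th k : ℝ) := by
    exact_mod_cast h3
  have h6 : W.d a b ≤ ((W.Bg k m).dist a b : ℝ) := by
    unfold LWorld.d
    exact_mod_cast h4
  linarith

omit [Fintype V] in
theorem reg_reverse {ρ : V → ℝ} {p a b : V} {k m : ℕ} {g : W.G.Walk a b}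
    (hr : W.Reg ρ p k m g) : W.Reg ρ p k m g.reverse where
  m16 := hr.m16
  big := hr.big
  lo := hr.lo
  hi := hr.hi
  ball z hz := hr.ball z (by simpa using hz)
  band z hz := hr.band z (by simpa using hz)
  same z hz := by
    rw [hr.same z (by simpa using hz), hr.same b g.end_mem_support]

/-- **r13**, from r11 -/
theorem piece_of (hS : Stretch W) {ρ w : V → ℝ} (hρ : W.Scale ρ) (hw : W.Inv (W.nxt ρ) w) {p q : V}
    (g : W.G.Walk p q) (hg : g.IsPath) (hball : ∀ z ∈ g.support, W.d p z ≤ kap * ρ p / 4 + 1)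
    (he : C1 * d1 * ρ p ≤ W.d p q) : W.d p q / 240 ≤ cost w g := by
  classical
  have hd0 := d_nonneg W p q
  by_cases hbig : 2 ^ 100 ≤ ρ p
  swap
  · have := piece_zero W hρ hw g hball (not_le.1 hbig)
    linarith
  -- the range of the heights
  obtain ⟨a, ha, hmin⟩ := Set.exists_min_image {z | z ∈ g.support} W.u
    (List.finite_toSet g.support) ⟨p, g.start_mem_support⟩
  obtain ⟨b, hb, hmax⟩ := Set.exists_max_image {z | z ∈ g.support} W.u
    (List.finite_toSet g.support) ⟨p, g.start_mem_support⟩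
  simp only [Set.mem_ofPred_eq] at ha hmin hb hmax
  have hv := piece_vert W hρ hw g hball hbig he ha hb
  have hab : (W.u a : ℝ) ≤ W.u b := by exact_mod_cast hmin b hb
  rw [abs_of_nonneg (sub_nonneg.2 hab)] at hv
  by_cases hV : W.d p q / 200 ≤ (W.u b : ℝ) - W.u a
  · norm_num at hv ⊢
    linarith
  rw [not_le] at hV
  set R : ℝ := (W.u b : ℝ) - W.u a with hR
  have hR0 : 0 ≤ R := sub_nonneg.2 hab
  have hrange : ∀ z1 ∈ g.support, ∀ z2 ∈ g.support, |(W.u z1 : ℝ) - W.u z2| ≤ R := by
    intro z1 h1 z2 h2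
    have e1 : (W.u a : ℝ) ≤ W.u z1 := by exact_mod_cast hmin z1 h1
    have e2 : (W.u a : ℝ) ≤ W.u z2 := by exact_mod_cast hmin z2 h2
    have e3 : (W.u z1 : ℝ) ≤ W.u b := by exact_mod_cast hmax z1 h1
    have e4 : (W.u z2 : ℝ) ≤ W.u b := by exact_mod_cast hmax z2 h2
    rw [abs_le]
    constructor <;> linarith
  have hbig' : (2 : ℝ) ^ 11 ≤ W.d p q := by
    refine le_trans ?_ he
    unfold C1 d1
    norm_num at hbig ⊢
    linarith
  -- hops
  have hhop : ∀ {x y : V} (h : W.G.Walk x y), h.IsPath → (∀ z ∈ h.support, z ∈ g.support) →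
      (∀ z ∈ h.support, z ≠ x → z ≠ y → z ∉ W.N) → W.d x y ≤ 2 * R := by
    intro x y h hp hs hN
    obtain ⟨m, hm, hlen⟩ := W.hop x y h hp hN
    have e1 := hrange m (hs m hm) x (hs x h.start_mem_support)
    have e2 := hrange y (hs y h.end_mem_support) m (hs m hm)
    have e3 : |(W.u m : ℝ) - W.u x| + |(W.u y : ℝ) - W.u m| = (h.length : ℝ) := by
      exact_mod_cast hlen
    have e4 := d_le_length W h
    linarith
  by_cases hex : ∃ z ∈ g.support, z ∈ W.N
  swap
  · exfalso
    push Not at hex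
    have := hhop g hg (fun z hz => hz) fun z hz _ _ => hex z hz
    norm_num at hbig'
    linarith
  obtain ⟨p1, g1, g2, hg12, hp1, hfirst⟩ := first_cut (· ∈ W.N) g hex
  obtain ⟨q1, k1, k2, hk12, hq1, hlast⟩ := first_cut (· ∈ W.N) g2.reverse
    ⟨p1, by simp, hp1⟩
  have hsup1 : ∀ z ∈ g1.support, z ∈ g.support := fun z hz => by
    rw [hg12, Walk.mem_support_append_iff]; exact Or.inl hz
  have hsup2 : ∀ z ∈ g2.support, z ∈ g.support := fun z hz => by
    rw [hg12, Walk.mem_support_append_iff]; exact Or.inr hz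
  have hpath1 : g1.IsPath := by rw [hg12] at hg; exact hg.of_append_left
  have hpath2 : g2.IsPath := by rw [hg12] at hg; exact hg.of_append_right
  have hsup3 : ∀ z ∈ k1.support, z ∈ g.support := fun z hz => hsup2 z (by
    have : z ∈ g2.reverse.support := by
      rw [hk12, Walk.mem_support_append_iff]; exact Or.inl hz
    simpa using this)
  have hsup4 : ∀ z ∈ k2.support, z ∈ g.support := fun z hz => hsup2 z (by
    have : z ∈ g2.reverse.support := by
      rw [hk12, Walk.mem_support_append_iff]; exact Or.inr hz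
    simpa using this)
  have hpath2' : (k1.append k2).IsPath := by rw [← hk12]; exact hpath2.reverse
  have hpath3 : k1.IsPath := hpath2'.of_append_left
  have hpath4 : k2.IsPath := hpath2'.of_append_right
  have hc1 : cost w g = cost w g1 + cost w g2 := by rw [hg12, cost_append]
  have hc2 : cost w g2 = cost w k1 + cost w k2 := by
    rw [← cost_reverse w g2, hk12, cost_append]
  have hc : cost w k2 ≤ cost w g := by
    have := cost_nonneg w g1
    have := cost_nonneg w k1
    linarith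
  have hd1 : W.d p p1 ≤ 2 * R := hhop g1 hpath1 hsup1 fun z hz _ hne => hfirst z hz hne
  have hd2 : W.d q q1 ≤ 2 * R := hhop k1 hpath3 hsup3 fun z hz _ hne => hlast z hz hne
  have hd3 : W.d p q ≤ W.d p1 q1 + 4 * R := by
    have e1 := d_tri W p p1 q
    have e2 := d_tri W p1 q1 q
    rw [d_comm W q1 q] at e2
    linarith
  -- the clock
  have hM1 : (64 : ℝ) ≤ 64 * d1 * ρ p := by
    unfold d1
    norm_num at hbig ⊢
    linarith
  have hexk : ∃ k : ℕ, max (16 * R) (64 * d1 * ρ p) ≤ (th k : ℝ) := by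
    obtain ⟨k, hk⟩ := pow_unbounded_of_one_lt (max (16 * R) (64 * d1 * ρ p))
      (by norm_num : (1 : ℝ) < 2)
    refine ⟨k, hk.le.trans ?_⟩
    unfold th
    push_cast
    have : (0 : ℝ) < 2 ^ k := by positivity
    linarith
  obtain ⟨k, hk, hkmin⟩ : ∃ k : ℕ, max (16 * R) (64 * d1 * ρ p) ≤ (th k : ℝ) ∧
      (th k : ℝ) < 2 * max (16 * R) (64 * d1 * ρ p) := by
    refine ⟨Nat.find hexk, Nat.find_spec hexk, ?_⟩
    have h0 : Nat.find hexk ≠ 0 := by
      intro h0
      have h1 := Nat.find_spec hexk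
      rw [h0] at h1
      have h2 := (le_max_right (16 * R) (64 * d1 * ρ p)).trans h1
      unfold th at h2
      norm_num at h2 hM1
      linarith
    obtain ⟨k', hk'⟩ := Nat.exists_eq_succ_of_ne_zero h0
    have h3 := Nat.find_min hexk (m := k') (by omega)
    rw [not_le] at h3
    rw [hk']
    unfold th at h3 ⊢
    push_cast at h3 ⊢
    rw [pow_succ]
    linarith
  have hk1 : 16 * R ≤ (th k : ℝ) := (le_max_left _ _).trans hk
  have hk2 : 64 * d1 * ρ p ≤ (th k : ℝ) := (le_max_right _ _).trans hk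
  have he' : 64 * d1 * ρ p ≤ W.d p q / 32 := by
    unfold C1 at he
    norm_num at he
    linarith
  have hk3 : (th k : ℝ) ≤ 16 / 100 * W.d p q := by
    have : max (16 * R) (64 * d1 * ρ p) ≤ 8 / 100 * W.d p q := by
      refine max_le ?_ ?_ <;> linarith
    linarith
  have hk4 : (th k : ℝ) ≤ (2 / 3) * dl * ρ p := by
    have h1 := hball q g.end_mem_support
    unfold dl
    unfold kap at h1
    norm_num at h1 hbig ⊢
    linarith
  obtain ⟨m, hm, t, hband⟩ := exists_band W k (W.u a)
  have hzb : ∀ z ∈ g.support, W.bi k m z = t ∧ 6 * 2 ^ k ≤ W.pos k m z ∧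
      W.pos k m z ≤ 9 * 2 ^ k := by
    intro z hz
    refine hband z (hmin z hz) ?_
    have h1 := hmax z hz
    have h2 : W.u b - W.u a ≤ 2 ^ k := by
      have h3 : (16 : ℝ) * ((W.u b : ℝ) - W.u a) ≤ 16 * 2 ^ k := by
        rw [← hR]
        have : (th k : ℝ) = 16 * 2 ^ k := by unfold th; push_cast; ring
        linarith
      have h4 : ((W.u b : ℝ) - W.u a) ≤ 2 ^ k := by linarith
      exact_mod_cast h4
    linarith
  have hreg : W.Reg ρ p k m k2 := by
    refine ⟨hm, hbig, hk2, hk4, fun z hz => hball z (hsup4 z hz),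
      fun z hz => (hzb z (hsup4 z hz)).2, fun z hz => ?_⟩
    rw [(hzb z (hsup4 z hz)).1, (hzb q1 (hsup4 q1 k2.start_mem_support)).1]
  have hfin : W.d p1 q1 ≤ (5 / 4) * cost w k2 + 64 * d1 * ρ p + 2 * (th k : ℝ) := by
    rcases le_total (W.idx q1) (W.idx p1) with hi | hi
    · have := piece_mid W hS hρ hw k2 hpath4 hreg hq1 hp1 hi
      rwa [d_comm] at this
    · have := piece_mid W hS hρ hw k2.reverse hpath4.reverse (reg_reverse W hreg) hp1 hq1 hi
      rwa [cost_reverse] at this
  linarith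

end main

end Vale.Agent.P235.STO.H200
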