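import Vale.Agent.P235.Comp.Defs

/-! P235, vortex, row V1 `conRetr` over V0 `cuts` (helper200, second source of #25447). -/

namespace Vale.Agent.P235.ST.H200R

open SimpleGraph

variable {V : Type} {G : SimpleGraph V} {ℓ : Sym2 V → ℝ}

/-! ### averages -/

theorem sum_ind {Ω : Type} [Fintype Ω] (B : Set Ω) (r : ℝ) :
    ∑ ω, B.indicator (fun _ => r) ω = (B.ncard : ℝ) * r := by
  classical
  rw [Set.ncard_eq_toFinset_card' B]
  simp only [Set.indicator_apply]
  rw [Finset.sum_ite, Finset.sum_const_zero, add_zero, Finset.sum_const, nsmul_eq_mul]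
  congr 3
  ext x
  simp

theorem avg2 {Ω : Type} [Fintype Ω] [Nonempty Ω] (g : Ω → ℝ) (B1 B2 : Set Ω)
    {a r1 r2 q1 q2 : ℝ} (hr1 : 0 ≤ r1) (hr2 : 0 ≤ r2)
    (h : ∀ ω, g ω ≤ a + B1.indicator (fun _ => r1) ω + B2.indicator (fun _ => r2) ω)
    (h1 : (B1.ncard : ℝ) ≤ q1 * Fintype.card Ω) (h2 : (B2.ncard : ℝ) ≤ q2 * Fintype.card Ω) :
    ∑ ω, (Fintype.card Ω : ℝ)⁻¹ * g ω ≤ a + q1 * r1 + q2 * r2 := by
  have hn : (0 : ℝ) < Fintype.card Ω := by exact_mod_cast Fintype.card_pos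
  rw [← Finset.mul_sum]
  have hs : ∑ ω, g ω ≤ Fintype.card Ω * a + (B1.ncard : ℝ) * r1 + (B2.ncard : ℝ) * r2 := by
    calc ∑ ω, g ω ≤ ∑ ω, (a + B1.indicator (fun _ => r1) ω + B2.indicator (fun _ => r2) ω) :=
          Finset.sum_le_sum fun ω _ => h ω
      _ = _ := by
          rw [Finset.sum_add_distrib, Finset.sum_add_distrib, sum_ind, sum_ind]
          simp
  have h3 : (B1.ncard : ℝ) * r1 ≤ q1 * Fintype.card Ω * r1 := mul_le_mul_of_nonneg_right h1 hr1
  have h4 : (B2.ncard : ℝ) * r2 ≤ q2 * Fintype.card Ω * r2 := mul_le_mul_of_nonneg_right h2 hr2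
  rw [inv_mul_le_iff₀ hn]
  nlinarith

theorem ncard_le_one {Ω : Type} [Fintype Ω] (B : Set Ω) :
    (B.ncard : ℝ) ≤ 1 * Fintype.card Ω := by
  rw [one_mul, ← Nat.card_eq_fintype_card]
  exact_mod_cast Set.ncard_le_card B

/-! ### components of the unassigned part -/

/-- one edge inside the unassigned part, inside one colour -/
def Stp (G : SimpleGraph V) (S : Set V) (c : V → V) (a b : V) : Prop :=
  G.Adj a b ∧ a ∉ S ∧ b ∉ S ∧ c a = c b

def K (G : SimpleGraph V) (S : Set V) (c : V → V) : V → V → Prop :=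
  Relation.ReflTransGen (Stp G S c)

theorem K_symm {S : Set V} {c : V → V} {a b : V} (h : K G S c a b) : K G S c b a := by
  induction h with
  | refl => exact .refl
  | tail _ h ih => exact .head ⟨h.1.symm, h.2.2.1, h.2.1, h.2.2.2.symm⟩ ih

theorem K_col {S : Set V} {c : V → V} {a b : V} (h : K G S c a b) : c a = c b := by
  induction h with
  | refl => rfl
  | tail _ h ih => exact ih.trans h.2.2.2

theorem K_walk {S : Set V} {c : V → V} {a b : V} (ha : a ∉ S) (h : K G S c a b) :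
    b ∉ S ∧ ∃ q : G.Walk a b, ∀ z ∈ q.support, z ∉ S ∧ K G S c a z := by
  induction h with
  | refl =>
    refine ⟨ha, Walk.nil, fun z hz => ?_⟩
    rw [Walk.support_nil, List.mem_singleton] at hz
    subst hz
    exact ⟨ha, .refl⟩
  | @tail b e h1 h2 ih =>
    obtain ⟨hb, q, hq⟩ := ih
    refine ⟨h2.2.2.1, q.concat h2.1, fun z hz => ?_⟩
    rw [Walk.support_concat, List.mem_append] at hz
    rcases hz with hz | hz
    · exact hq z hz
    · rw [List.mem_singleton] at hz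
      subst hz
      exact ⟨h2.2.2.1, h1.tail h2⟩

/-- assigned neighbours of the component of `v` by an edge of length at most `D` -/
def T (G : SimpleGraph V) (ℓ : Sym2 V → ℝ) (D : ℝ) (S : Set V) (c : V → V) (v : V) : Set V :=
  {y | y ∈ S ∧ ∃ u, K G S c v u ∧ G.Adj u y ∧ ℓ s(u, y) ≤ D}

theorem T_eq {D : ℝ} {S : Set V} {c : V → V} {a b : V} (h : K G S c a b) :
    T G ℓ D S c a = T G ℓ D S c b := by
  ext y
  constructor
  · rintro ⟨hy, u, hu, h1, h2⟩
    exact ⟨hy, u, (K_symm h).trans hu, h1, h2⟩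
  · rintro ⟨hy, u, hu, h1, h2⟩
    exact ⟨hy, u, Relation.ReflTransGen.trans h hu, h1, h2⟩

open Classical in
/-- the new map -/
noncomputable def nf (G : SimpleGraph V) (ℓ : Sym2 V → ℝ) (D : ℝ) (S : Set V) (c f : V → V)
    (v : V) : V :=
  if v ∈ S then f v else if h : (T G ℓ D S c v).Nonempty then f h.some else v

/-- the new assigned set -/
def nS (G : SimpleGraph V) (ℓ : Sym2 V → ℝ) (D : ℝ) (S : Set V) (c : V → V) : Set V :=
  {v | v ∈ S ∨ (T G ℓ D S c v).Nonempty}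

theorem nf_in {D : ℝ} {S : Set V} {c f : V → V} {v : V} (h : v ∈ S) :
    nf G ℓ D S c f v = f v := by
  rw [nf, if_pos h]

theorem nf_out {D : ℝ} {S : Set V} {c f : V → V} {v : V} (h : v ∉ S)
    (hT : (T G ℓ D S c v).Nonempty) : nf G ℓ D S c f v = f hT.some := by
  rw [nf, if_neg h, dif_pos hT]

theorem some_eq {A B : Set V} (h : A = B) (hA : A.Nonempty) (hB : B.Nonempty) :
    hA.some = hB.some := by
  subst h
  rfl

/-- the metric facts used -/
structure Mt (G : SimpleGraph V) (ℓ : Sym2 V → ℝ) (d : V → V → ℝ) : Prop where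
  nn : ∀ a b, 0 ≤ d a b
  self : ∀ a, d a a = 0
  comm : ∀ a b, d a b = d b a
  tri : ∀ a b c, d a c ≤ d a b + d b c
  adj : ∀ a b, G.Adj a b → d a b ≤ ℓ s(a, b)

/-- a state: assigned set `S`, map `f` -/
structure St (G : SimpleGraph V) (X : Set V) (d : V → V → ℝ) (R : ℝ) (S : Set V)
    (f : V → V) : Prop where
  sub : X ⊆ S
  fix : ∀ x ∈ X, f x = x
  mem : ∀ v ∈ S, f v ∈ X
  con : ∀ v ∈ S, ∃ q : G.Walk v (f v), ∀ z ∈ q.support, z ∈ S ∧ f z = f v
  dist : ∀ v ∈ S, d v (f v) ≤ R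

theorem upd_st {X : Set V} {d : V → V → ℝ} (hd : Mt G ℓ d) {D : ℝ} (hD : 0 < D) {S : Set V}
    {c f : V → V} (hst : St G X d (2 * D) S f)
    (hdiam : ∀ u v, u ∉ X → v ∉ X → ReachOff G X u v → c u = c v → d u v ≤ D) :
    St G X d (4 * D) (nS G ℓ D S c) (nf G ℓ D S c f) where
  sub := fun x hx => Or.inl (hst.sub hx)
  fix := fun x hx => by rw [nf_in (hst.sub hx)]; exact hst.fix x hx
  mem := by
    rintro v hv
    by_cases hvS : v ∈ S
    · rw [nf_in hvS]; exact hst.mem v hvS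
    · have hT : (T G ℓ D S c v).Nonempty := hv.resolve_left hvS
      rw [nf_out hvS hT]
      exact hst.mem _ hT.some_mem.1
  con := by
    rintro v hv
    by_cases hvS : v ∈ S
    · rw [nf_in hvS]
      obtain ⟨q, hq⟩ := hst.con v hvS
      refine ⟨q, fun z hz => ⟨Or.inl (hq z hz).1, ?_⟩⟩
      rw [nf_in (hq z hz).1]
      exact (hq z hz).2
    · have hT : (T G ℓ D S c v).Nonempty := hv.resolve_left hvS
      rw [nf_out hvS hT]
      obtain ⟨hyS, u, hK, hadj, hle⟩ := hT.some_mem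
      obtain ⟨huS, q1, hq1⟩ := K_walk hvS hK
      obtain ⟨q2, hq2⟩ := hst.con _ hyS
      have key : ∀ z ∈ q1.support, z ∈ nS G ℓ D S c ∧ nf G ℓ D S c f z = f hT.some := by
        intro z hz
        obtain ⟨hzS, hzK⟩ := hq1 z hz
        have hTz : (T G ℓ D S c z).Nonempty := by rw [← T_eq hzK]; exact hT
        refine ⟨Or.inr hTz, ?_⟩
        rw [nf_out hzS hTz]
        exact congrArg f (some_eq (T_eq hzK).symm hTz hT)
      refine ⟨q1.append (Walk.cons hadj q2), fun z hz => ?_⟩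
      rw [Walk.mem_support_append_iff, Walk.support_cons, List.mem_cons] at hz
      rcases hz with hz | rfl | hz
      · exact key z hz
      · exact key z q1.end_mem_support
      · refine ⟨Or.inl (hq2 z hz).1, ?_⟩
        rw [nf_in (hq2 z hz).1]
        exact (hq2 z hz).2
  dist := by
    rintro v hv
    by_cases hvS : v ∈ S
    · rw [nf_in hvS]
      have := hst.dist v hvS
      linarith
    · have hT : (T G ℓ D S c v).Nonempty := hv.resolve_left hvS
      rw [nf_out hvS hT]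
      obtain ⟨hyS, u, hK, hadj, hle⟩ := hT.some_mem
      obtain ⟨huS, q1, hq1⟩ := K_walk hvS hK
      have h1 : d v u ≤ D := hdiam v u (fun h => hvS (hst.sub h)) (fun h => huS (hst.sub h))
        ⟨q1, fun a ha h => (hq1 a ha).1 (hst.sub h)⟩ (K_col hK)
      have h2 := hd.adj _ _ hadj
      have h3 := hst.dist _ hyS
      have h4 := hd.tri v u (f hT.some)
      have h5 := hd.tri u hT.some (f hT.some)
      linarith

theorem upd_same {D : ℝ} {S : Set V} {c f : V → V} {u v : V} (hu : u ∉ S) (hv : v ∉ S)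
    (hadj : G.Adj u v) (hc : c u = c v) (h : u ∈ nS G ℓ D S c) :
    v ∈ nS G ℓ D S c ∧ nf G ℓ D S c f u = nf G ℓ D S c f v := by
  have hK : K G S c u v := .single ⟨hadj, hu, hv, hc⟩
  have hT : (T G ℓ D S c u).Nonempty := h.resolve_left hu
  have hT' : (T G ℓ D S c v).Nonempty := by rw [← T_eq hK]; exact hT
  refine ⟨Or.inr hT', ?_⟩
  rw [nf_out hu hT, nf_out hv hT']
  exact congrArg f (some_eq (T_eq hK) hT hT')

/-- length of a walk -/
def len (ℓ : Sym2 V → ℝ) {u v : V} (p : G.Walk u v) : ℝ := (p.edges.map ℓ).sum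

theorem len_nonneg (hℓ : ∀ e ∈ G.edgeSet, 0 < ℓ e) {u v : V} (p : G.Walk u v) :
    0 ≤ len ℓ p := by
  refine List.sum_nonneg fun x hx => ?_
  rw [List.mem_map] at hx
  obtain ⟨e, he, rfl⟩ := hx
  exact (hℓ e (p.edges_subset_edgeSet he)).le

theorem len_cons {u v x : V} (h : G.Adj u v) (p : G.Walk v x) :
    len ℓ (Walk.cons h p) = ℓ s(u, v) + len ℓ p := by
  simp [len]

theorem walk_bad (hℓ : ∀ e ∈ G.edgeSet, 0 < ℓ e) {X : Set V} {Ω : Type} [Fintype Ω]
    (c : Ω → V → V) {k : ℝ} (hk : 0 ≤ k)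
    (hcut : ∀ u v, u ∉ X → v ∉ X → G.Adj u v →
      ({ω | c ω u ≠ c ω v}.ncard : ℝ) ≤ k * ℓ s(u, v)) :
    ∀ {v x : V} (p : G.Walk v x), x ∈ X → ∃ B : Set Ω, (B.ncard : ℝ) ≤ k * len ℓ p ∧
      ∀ ω ∉ B, ∀ S : Set V, X ⊆ S → v ∉ S →
        ∃ u y, K G S (c ω) v u ∧ y ∈ S ∧ G.Adj u y ∧ ℓ s(u, y) ≤ len ℓ p := by
  intro v x p
  induction p with
  | nil =>
    intro hx
    refine ⟨∅, by simp [len], fun ω _ S hS hv => absurd (hS hx) hv⟩
  | @cons v v' x h p ih =>
    intro hx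
    obtain ⟨B, hB, hBS⟩ := ih hx
    have hl : 0 < ℓ s(v, v') := hℓ _ h
    refine ⟨B ∪ {ω | v ∉ X ∧ v' ∉ X ∧ c ω v ≠ c ω v'}, ?_, fun ω hω S hS hv => ?_⟩
    · have h1 : ({ω | v ∉ X ∧ v' ∉ X ∧ c ω v ≠ c ω v'}.ncard : ℝ) ≤ k * ℓ s(v, v') := by
        by_cases hvv : v ∉ X ∧ v' ∉ X
        · refine le_trans ?_ (hcut v v' hvv.1 hvv.2 h)
          exact_mod_cast Set.ncard_le_ncard (s := {ω | v ∉ X ∧ v' ∉ X ∧ c ω v ≠ c ω v'})
            (fun ω hω => hω.2.2) (Set.toFinite _)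
        · have : {ω | v ∉ X ∧ v' ∉ X ∧ c ω v ≠ c ω v'} = ∅ := by
            ext ω
            simp only [Set.mem_ofPred_eq, Set.mem_empty_iff_false, iff_false]
            exact fun h => hvv ⟨h.1, h.2.1⟩
          rw [this, Set.ncard_empty]
          push_cast
          positivity
      have h2 := Set.ncard_union_le B {ω | v ∉ X ∧ v' ∉ X ∧ c ω v ≠ c ω v'}
      have h3 : ((B ∪ {ω | v ∉ X ∧ v' ∉ X ∧ c ω v ≠ c ω v'}).ncard : ℝ) ≤
          B.ncard + {ω | v ∉ X ∧ v' ∉ X ∧ c ω v ≠ c ω v'}.ncard := by exact_mod_cast h2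
      rw [len_cons]
      linarith
    · rw [Set.mem_union, not_or] at hω
      rw [len_cons]
      by_cases hv' : v' ∈ S
      · exact ⟨v, v', .refl, hv', h, by linarith [len_nonneg hℓ p]⟩
      · obtain ⟨u, y, h1, h2, h3, h4⟩ := hBS ω hω.1 S hS hv'
        have hc : c ω v = c ω v' := by
          by_contra hne
          exact hω.2 ⟨fun h => hv (hS h), fun h => hv' (hS h), hne⟩
        exact ⟨u, y, .head ⟨h, hv, hv', hc⟩ h1, h2, h3, by linarith⟩

/-- an outcome -/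
structure Out (G : SimpleGraph V) (ℓ : Sym2 V → ℝ) (X : Set V) (d : V → V → ℝ) (A : V → ℝ)
    (R : ℝ → ℝ) (Φ : ℝ → ℝ)
    (S : Set V) (f : V → V) (ι : Type) [Fintype ι] (w : ι → ℝ) (π : ι → V → V) : Prop where
  nn : ∀ j, 0 ≤ w j
  one : ∑ j, w j = 1
  ext : ∀ j, ∀ v ∈ S, π j v = f v
  mem : ∀ j v, π j v ∈ X
  con : ∀ j v, ∃ q : G.Walk v (π j v), ∀ z ∈ q.support, π j z = π j v
  rad : ∀ v ∉ S, ∑ j, w j * d v (π j v) ≤ R (A v)
  pay : ∀ u v, u ∉ S → v ∉ S → G.Adj u v → ℓ s(u, v) ≤ A u → ℓ s(u, v) ≤ A v →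
    ∑ j, w j * d (π j u) (π j v) ≤ ℓ s(u, v) * Φ (min (A u) (A v))

/-- radius bound -/
noncomputable def Rf (b D A : ℝ) : ℝ := max (80 * b * A - 4 * D) (8 * D + 32 * b * A)

/-- payment factor -/
noncomputable def Pf (b D A : ℝ) : ℝ := b * (88 + 656 * min (b * A / D) (4 * b))

theorem Rf_nonneg {b D A : ℝ} (hb : 0 ≤ b) (hD : 0 < D) (hA : 0 ≤ A) : 0 ≤ Rf b D A :=
  le_max_of_le_right (by positivity)

theorem Rf_le {b D A : ℝ} (hb : 0 ≤ b) (hD : 0 < D) (hA : 0 ≤ A) :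
    Rf b D A ≤ 8 * D + 80 * b * A := by
  have : 0 ≤ b * A := by positivity
  exact max_le (by linarith) (by linarith)

theorem Rf_rec {b D A q : ℝ} (hb : 0 ≤ b) (hD : 0 < D) (hA : 0 ≤ A) (hq : 0 ≤ q) (hq1 : q ≤ 1)
    (hqA : q ≤ b * A / D) : 4 * D + q * Rf b (2 * D) A ≤ Rf b D A := by
  have hy : 0 ≤ b * A := by positivity
  have hqD : q * D ≤ b * A := by rwa [le_div_iff₀ hD] at hqA
  have e1 : 80 * b * A = 80 * (b * A) := by ring
  have e2 : 32 * b * A = 32 * (b * A) := by ring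
  unfold Rf
  rw [e1, e2]
  generalize b * A = y at *
  have hqD0 : 0 ≤ q * D := mul_nonneg hq hD.le
  rcases lt_or_ge D (2 * y) with h | h
  · refine le_trans ?_ (le_max_left _ _)
    rcases max_choice (80 * y - 4 * (2 * D)) (8 * (2 * D) + 32 * y) with hM | hM <;> rw [hM]
    · nlinarith [mul_nonneg (sub_nonneg.2 hq1) (show 0 ≤ 80 * y - 8 * D by linarith)]
    · nlinarith [mul_nonneg (sub_nonneg.2 hq1) (show 0 ≤ 16 * D + 32 * y by linarith)]
  · refine le_trans ?_ (le_max_right _ _)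
    have hqy : q * y ≤ y / 2 := by nlinarith [mul_le_mul_of_nonneg_left h hq]
    rcases max_choice (80 * y - 4 * (2 * D)) (8 * (2 * D) + 32 * y) with hM | hM <;> rw [hM]
    · nlinarith
    · nlinarith

theorem Pf_nonneg {b D A : ℝ} (hb : 0 ≤ b) (hD : 0 < D) (hA : 0 ≤ A) : 0 ≤ Pf b D A := by
  have : 0 ≤ min (b * A / D) (4 * b) := le_min (by positivity) (by positivity)
  unfold Pf
  positivity

theorem Pf_mono {b D A : ℝ} (hb : 0 ≤ b) (hD : 0 < D) (hA : 0 ≤ A) :
    Pf b (2 * D) A ≤ Pf b D A := by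
  have h : b * A / (2 * D) ≤ b * A / D := by
    apply div_le_div_of_nonneg_left (by positivity) hD (by linarith)
  have h2 : min (b * A / (2 * D)) (4 * b) ≤ min (b * A / D) (4 * b) := min_le_min h le_rfl
  unfold Pf
  apply mul_le_mul_of_nonneg_left _ hb
  linarith

theorem Pf_rec {b D A q l : ℝ} (hb : 2 ≤ b) (hD : 0 < D) (hA : 0 ≤ A) (hq : 0 ≤ q)
    (hq1 : q ≤ 1) (hqA : q ≤ b * A / D) (hl : 0 ≤ l) (h4 : A ≤ 4 * D) :
    b / (2 * D) * l * (44 * D + 240 * b * A) + q * (l * Pf b (2 * D) A) ≤ l * Pf b D A := by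
  have hx : 0 ≤ b * A / D := by positivity
  have h1 : b * A / D ≤ 4 * b := by
    rw [div_le_iff₀ hD]; nlinarith
  have e1 : b / (2 * D) * l * (44 * D + 240 * b * A) = l * (b * (22 + 120 * (b * A / D))) := by
    field_simp
    ring
  have e2 : Pf b D A = b * (88 + 656 * (b * A / D)) := by
    unfold Pf
    rw [min_eq_left h1]
  have e3 : Pf b (2 * D) A ≤ b * (88 + 328 * (b * A / D)) := by
    unfold Pf
    have : min (b * A / (2 * D)) (4 * b) ≤ b * A / D / 2 := by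
      refine (min_le_left _ _).trans (le_of_eq ?_)
      field_simp
    apply mul_le_mul_of_nonneg_left _ (by linarith)
    linarith
  have e4 : q * (l * Pf b (2 * D) A) ≤ q * (l * (b * (88 + 328 * (b * A / D)))) := by
    gcongr
  rw [e1, e2]
  refine le_trans (add_le_add_right e4 _) ?_
  generalize b * A / D = x at *
  have hlb : 0 ≤ l * b := by positivity
  have key : 22 + 120 * x + q * (88 + 328 * x) ≤ 88 + 656 * x := by
    rcases le_total x (1 / 2) with h | h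
    · nlinarith [mul_le_mul_of_nonneg_right hqA (show 0 ≤ 88 + 328 * x by linarith)]
    · nlinarith [mul_le_mul_of_nonneg_right hq1 (show 0 ≤ 88 + 328 * x by linarith)]
  nlinarith [mul_le_mul_of_nonneg_left key hlb]

/-! ### one stage -/

theorem unass (hℓ : ∀ e ∈ G.edgeSet, 0 < ℓ e) {X : Set V} {A : V → ℝ} (hA0 : ∀ v, 0 ≤ A v)
    (hAw : ∀ v, ∃ x ∈ X, ∃ p : G.Walk v x, len ℓ p ≤ 2 * A v) {b : ℝ} (hb : 2 ≤ b)
    {D : ℝ} (hD : 0 < D) {Ω : Type} [Fintype Ω] [Nonempty Ω] (c : Ω → V → V)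
    (hcut : ∀ u v, u ∉ X → v ∉ X → G.Adj u v →
      ({ω | c ω u ≠ c ω v}.ncard : ℝ) ≤ b / (2 * D) * Fintype.card Ω * ℓ s(u, v))
    {S : Set V} (hS : X ⊆ S) {v : V} (hv : v ∉ S) :
    ∃ (B : Set Ω) (q : ℝ), 0 ≤ q ∧ q ≤ 1 ∧ q ≤ b * A v / D ∧
      (B.ncard : ℝ) ≤ q * Fintype.card Ω ∧ ∀ ω ∉ B, v ∈ nS G ℓ D S (c ω) := by
  have hn : (0 : ℝ) < Fintype.card Ω := by exact_mod_cast Fintype.card_pos
  have hAv := hA0 v
  have hx : 0 ≤ b * A v / D := by positivity
  rcases lt_or_ge D (2 * A v) with h | h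
  · refine ⟨Set.univ, 1, zero_le_one, le_rfl, ?_, ncard_le_one _, fun ω hω => absurd trivial hω⟩
    rw [le_div_iff₀ hD]
    nlinarith
  · obtain ⟨x, hx', p, hp⟩ := hAw v
    obtain ⟨B, hB, hBS⟩ := walk_bad hℓ c (k := b / (2 * D) * Fintype.card Ω) (by positivity)
      hcut p hx'
    refine ⟨B, min 1 (b * A v / D), le_min zero_le_one hx, min_le_left _ _, min_le_right _ _, ?_,
      fun ω hω => ?_⟩
    · rcases min_choice 1 (b * A v / D) with hm | hm <;> rw [hm]
      · exact ncard_le_one B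
      · refine hB.trans ?_
        have : b / (2 * D) * Fintype.card Ω * len ℓ p ≤
            b / (2 * D) * Fintype.card Ω * (2 * A v) := by gcongr
        refine this.trans (le_of_eq ?_)
        field_simp
    · obtain ⟨u, y, h1, h2, h3, h4⟩ := hBS ω hω S hS hv
      exact Or.inr ⟨y, h2, u, h1, h3, by linarith⟩

theorem stage {X : Set V} {d : V → V → ℝ} (hd : Mt G ℓ d) (hℓ : ∀ e ∈ G.edgeSet, 0 < ℓ e)
    {A : V → ℝ} (hA0 : ∀ v, 0 ≤ A v) (hAX : ∀ v, ∀ x ∈ X, A v ≤ d v x)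
    (hAw : ∀ v, ∃ x ∈ X, ∃ p : G.Walk v x, len ℓ p ≤ 2 * A v)
    (hAl : ∀ u v, G.Adj u v → A v ≤ A u + ℓ s(u, v)) {b : ℝ} (hb : 2 ≤ b)
    {D : ℝ} (hD : 0 < D) {Ω : Type} [Fintype Ω] [Nonempty Ω] (c : Ω → V → V)
    (hdiam : ∀ ω u v, u ∉ X → v ∉ X → ReachOff G X u v → c ω u = c ω v → d u v ≤ D)
    (hcut : ∀ u v, u ∉ X → v ∉ X → G.Adj u v →
      ({ω | c ω u ≠ c ω v}.ncard : ℝ) ≤ b / (2 * D) * Fintype.card Ω * ℓ s(u, v))
    {S : Set V} {f : V → V} (hst : St G X d (2 * D) S f)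
    (ih : ∀ S f, St G X d (4 * D) S f → ∃ (ι : Type) (_ : Fintype ι) (w : ι → ℝ) (π : ι → V → V),
      Out G ℓ X d A (Rf b (2 * D)) (Pf b (2 * D)) S f ι w π) :
    ∃ (ι : Type) (_ : Fintype ι) (w : ι → ℝ) (π : ι → V → V),
      Out G ℓ X d A (Rf b D) (Pf b D) S f ι w π := by
  classical
  have hn : (0 : ℝ) < Fintype.card Ω := by exact_mod_cast Fintype.card_pos
  have hb0 : 0 ≤ b := by linarith
  choose ι inst w π hout using fun ω => ih _ _ (upd_st hd hD hst (hdiam ω))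
  have hupd := fun ω => upd_st hd hD hst (hdiam ω)
  -- radius of one vertex
  have hρ1 : ∀ ω v, v ∈ nS G ℓ D S (c ω) → ∑ j, w ω j * d v (π ω j v) ≤ 4 * D := by
    intro ω v hv
    have : ∀ j, w ω j * d v (π ω j v) ≤ w ω j * (4 * D) := by
      intro j
      apply mul_le_mul_of_nonneg_left _ ((hout ω).nn j)
      rw [(hout ω).ext j v hv]
      exact (hupd ω).dist v hv
    refine (Finset.sum_le_sum fun j _ => this j).trans (le_of_eq ?_)
    rw [← Finset.sum_mul, (hout ω).one, one_mul]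
  have hρ2 : ∀ ω v, ∑ j, w ω j * d v (π ω j v) ≤ 4 * D + Rf b (2 * D) (A v) := by
    intro ω v
    have h0 : 0 ≤ Rf b (2 * D) (A v) := Rf_nonneg hb0 (by linarith) (hA0 v)
    by_cases hv : v ∈ nS G ℓ D S (c ω)
    · have := hρ1 ω v hv
      linarith
    · have := (hout ω).rad v hv
      linarith
  have hsum : ∀ g : (ω : Ω) → ι ω → ℝ,
      ∑ x : (ω : Ω) × ι ω, (Fintype.card Ω : ℝ)⁻¹ * w x.1 x.2 * g x.1 x.2 =
        ∑ ω, (Fintype.card Ω : ℝ)⁻¹ * ∑ j, w ω j * g ω j := by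
    intro g
    rw [Fintype.sum_sigma]
    refine Finset.sum_congr rfl fun ω _ => ?_
    rw [Finset.mul_sum]
    exact Finset.sum_congr rfl fun j _ => mul_assoc _ _ _
  refine ⟨(ω : Ω) × ι ω, inferInstance, fun x => (Fintype.card Ω : ℝ)⁻¹ * w x.1 x.2,
    fun x => π x.1 x.2, ?_, ?_, ?_, ?_, ?_, ?_, ?_⟩
  · rintro ⟨ω, j⟩
    exact mul_nonneg (inv_nonneg.2 hn.le) ((hout ω).nn j)
  · have := hsum fun _ _ => 1
    simp only [mul_one] at this
    rw [this]
    have h1 : ∀ ω, ∑ j, w ω j = 1 := fun ω => (hout ω).one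
    simp only [h1]
    rw [Finset.sum_const, Finset.card_univ, nsmul_eq_mul, mul_one, mul_inv_cancel₀ hn.ne']
  · rintro ⟨ω, j⟩ v hv
    show π ω j v = f v
    rw [(hout ω).ext j v (Or.inl hv), nf_in hv]
  · rintro ⟨ω, j⟩ v
    exact (hout ω).mem j v
  · rintro ⟨ω, j⟩ v
    exact (hout ω).con j v
  · intro v hv
    show ∑ x : (ω : Ω) × ι ω, (Fintype.card Ω : ℝ)⁻¹ * w x.1 x.2 * d v (π x.1 x.2 v) ≤ _
    rw [hsum fun ω j => d v (π ω j v)]
    obtain ⟨B, q, hq, hq1, hqA, hB, hBS⟩ := unass hℓ hA0 hAw hb hD c hcut hst.sub hv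
    have h0 : 0 ≤ Rf b (2 * D) (A v) := Rf_nonneg hb0 (by linarith) (hA0 v)
    have := avg2 (fun ω => ∑ j, w ω j * d v (π ω j v)) B ∅ (a := 4 * D)
      (r1 := Rf b (2 * D) (A v)) (r2 := 0) (q1 := q) (q2 := 0) h0 le_rfl ?_ hB (by simp)
    · refine this.trans ?_
      have := Rf_rec hb0 hD (hA0 v) hq hq1 hqA
      linarith
    · intro ω
      by_cases hω : ω ∈ B
      · rw [Set.indicator_of_mem hω]
        have := hρ2 ω v
        simpa using this
      · rw [Set.indicator_of_notMem hω]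
        have := hρ1 ω v (hBS ω hω)
        simpa using this
  · intro u v hu hv hadj hlu hlv
    show ∑ x : (ω : Ω) × ι ω, (Fintype.card Ω : ℝ)⁻¹ * w x.1 x.2 *
      d (π x.1 x.2 u) (π x.1 x.2 v) ≤ _
    rw [hsum fun ω j => d (π ω j u) (π ω j v)]
    have hl : 0 < ℓ s(u, v) := hℓ _ hadj
    have hm0 : 0 ≤ min (A u) (A v) := le_min (hA0 u) (hA0 v)
    have hP0 : 0 ≤ Pf b (2 * D) (min (A u) (A v)) := Pf_nonneg hb0 (by linarith) hm0
    have hr2 : 0 ≤ ℓ s(u, v) * Pf b (2 * D) (min (A u) (A v)) := mul_nonneg hl.le hP0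
    have hun2 : ∀ ω, u ∉ nS G ℓ D S (c ω) → v ∉ nS G ℓ D S (c ω) →
        ∑ j, w ω j * d (π ω j u) (π ω j v) ≤ ℓ s(u, v) * Pf b (2 * D) (min (A u) (A v)) :=
      fun ω h1 h2 => (hout ω).pay u v h1 h2 hadj hlu hlv
    by_cases h4 : 4 * D < min (A u) (A v)
    · have hno : ∀ ω t, min (A u) (A v) ≤ A t → t ∉ nS G ℓ D S (c ω) := by
        intro ω t ht hmem
        have h1 := (hupd ω).dist t hmem
        have h2 := hAX t _ ((hupd ω).mem t hmem)
        linarith
      have := avg2 (fun ω => ∑ j, w ω j * d (π ω j u) (π ω j v)) ∅ ∅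
        (a := ℓ s(u, v) * Pf b (2 * D) (min (A u) (A v)))
        (r1 := 0) (r2 := 0) (q1 := 0) (q2 := 0) le_rfl le_rfl ?_ (by simp) (by simp)
      · refine this.trans ?_
        have := mul_le_mul_of_nonneg_left (Pf_mono hb0 hD hm0) hl.le
        linarith
      · intro ω
        have := hun2 ω (hno ω u (min_le_left _ _)) (hno ω v (min_le_right _ _))
        simpa using this
    · rw [not_lt] at h4
      have hB : ∃ (B : Set Ω) (q : ℝ), 0 ≤ q ∧ q ≤ 1 ∧ q ≤ b * min (A u) (A v) / D ∧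
          (B.ncard : ℝ) ≤ q * Fintype.card Ω ∧
          ∀ ω ∉ B, u ∈ nS G ℓ D S (c ω) ∨ v ∈ nS G ℓ D S (c ω) := by
        rcases min_choice (A u) (A v) with hm | hm <;> rw [hm]
        · obtain ⟨B, q, h1, h2, h3, h5, h6⟩ := unass hℓ hA0 hAw hb hD c hcut hst.sub hu
          exact ⟨B, q, h1, h2, h3, h5, fun ω hω => Or.inl (h6 ω hω)⟩
        · obtain ⟨B, q, h1, h2, h3, h5, h6⟩ := unass hℓ hA0 hAw hb hD c hcut hst.sub hv
          exact ⟨B, q, h1, h2, h3, h5, fun ω hω => Or.inr (h6 ω hω)⟩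
      obtain ⟨B, q, hq, hq1, hqA, hBn, hBS⟩ := hB
      have hAA : A u + A v ≤ 3 * min (A u) (A v) := by
        have h1 := hAl u v hadj
        have h2 := hAl v u hadj.symm
        rw [Sym2.eq_swap] at h2
        rcases min_choice (A u) (A v) with hm | hm <;> rw [hm] <;> linarith
      have hlm : ℓ s(u, v) ≤ min (A u) (A v) := le_min hlu hlv
      have hr1 : 0 ≤ 44 * D + 240 * b * min (A u) (A v) := by positivity
      have hcost : ∀ ω, ∑ j, w ω j * d (π ω j u) (π ω j v) ≤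
          44 * D + 240 * b * min (A u) (A v) := by
        intro ω
        have h1 : ∑ j, w ω j * d (π ω j u) (π ω j v) ≤
            ∑ j, (w ω j * d u (π ω j u) + w ω j * ℓ s(u, v) + w ω j * d v (π ω j v)) := by
          refine Finset.sum_le_sum fun j _ => ?_
          rw [← mul_add, ← mul_add]
          apply mul_le_mul_of_nonneg_left _ ((hout ω).nn j)
          have h1 := hd.tri (π ω j u) u (π ω j v)
          have h2 := hd.tri u v (π ω j v)
          have h3 := hd.comm (π ω j u) u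
          have h4 := hd.adj u v hadj
          linarith
        rw [Finset.sum_add_distrib, Finset.sum_add_distrib, ← Finset.sum_mul, (hout ω).one,
          one_mul] at h1
        have h2 := hρ2 ω u
        have h3 := hρ2 ω v
        have h5 := Rf_le hb0 (show 0 < 2 * D by linarith) (hA0 u)
        have h6 := Rf_le hb0 (show 0 < 2 * D by linarith) (hA0 v)
        have h7 : b * (A u + A v) ≤ b * (3 * min (A u) (A v)) :=
          mul_le_mul_of_nonneg_left hAA hb0
        nlinarith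
      have := avg2 (fun ω => ∑ j, w ω j * d (π ω j u) (π ω j v)) {ω | c ω u ≠ c ω v} B
        (a := 0) (r1 := 44 * D + 240 * b * min (A u) (A v))
        (r2 := ℓ s(u, v) * Pf b (2 * D) (min (A u) (A v)))
        (q1 := b / (2 * D) * ℓ s(u, v)) (q2 := q) hr1 hr2 ?_ ?_ hBn
      · refine this.trans ?_
        have := Pf_rec hb hD hm0 hq hq1 hqA hl.le h4
        linarith
      · intro ω
        by_cases hω : c ω u = c ω v
        · rw [Set.indicator_of_notMem (show ω ∉ {ω | c ω u ≠ c ω v} from fun h => h hω)]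
          by_cases hun : u ∈ nS G ℓ D S (c ω)
          · obtain ⟨hvn, hfe⟩ := upd_same (f := f) hu hv hadj hω hun
            have h0 : ∑ j, w ω j * d (π ω j u) (π ω j v) = 0 := by
              refine Finset.sum_eq_zero fun j _ => ?_
              rw [(hout ω).ext j u hun, (hout ω).ext j v hvn, hfe, hd.self, mul_zero]
            show ∑ j, w ω j * d (π ω j u) (π ω j v) ≤ _
            rw [h0]
            have : 0 ≤ B.indicator (fun _ => ℓ s(u, v) * Pf b (2 * D) (min (A u) (A v))) ω :=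
              Set.indicator_nonneg (fun _ _ => hr2) ω
            linarith
          · have hvn : v ∉ nS G ℓ D S (c ω) := fun h =>
              hun (upd_same (f := f) hv hu hadj.symm hω.symm h).1
            have hωB : ω ∈ B := by
              by_contra hne
              rcases hBS ω hne with h | h
              · exact hun h
              · exact hvn h
            rw [Set.indicator_of_mem hωB]
            have := hun2 ω hun hvn
            simpa using this
        · rw [Set.indicator_of_mem (show ω ∈ {ω | c ω u ≠ c ω v} from hω)]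
          have : 0 ≤ B.indicator (fun _ => ℓ s(u, v) * Pf b (2 * D) (min (A u) (A v))) ω :=
            Set.indicator_nonneg (fun _ _ => hr2) ω
          have h2 := hcost ω
          show ∑ j, w ω j * d (π ω j u) (π ω j v) ≤ _
          linarith
      · have := hcut u v (fun h => hu (hst.sub h)) (fun h => hv (hst.sub h)) hadj
        refine this.trans (le_of_eq ?_)
        ring

theorem base {X : Set V} (hX : X.Nonempty) {d : V → V → ℝ} (hd : Mt G ℓ d)
    (hℓ : ∀ e ∈ G.edgeSet, 0 < ℓ e) {A : V → ℝ} (hA0 : ∀ v, 0 ≤ A v)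
    (hAw : ∀ v, ∃ x ∈ X, ∃ p : G.Walk v x, len ℓ p ≤ 2 * A v) {b : ℝ} (hb : 2 ≤ b)
    {D M : ℝ} (hD : 0 < D) (hM : ∀ u v, d u v ≤ M) (hMA : ∀ v, 2 * A v ≤ M) (hMD : M ≤ D)
    {S : Set V} {f : V → V} (hst : St G X d (2 * D) S f) :
    ∃ (ι : Type) (_ : Fintype ι) (w : ι → ℝ) (π : ι → V → V),
      Out G ℓ X d A (Rf b D) (Pf b D) S f ι w π := by
  obtain ⟨x0, -⟩ := hX
  have hb0 : 0 ≤ b := by linarith
  let c : V → V := fun _ => x0
  have hupd := upd_st hd hD hst (c := c) (fun u v _ _ _ _ => (hM u v).trans hMD)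
  have hall : ∀ v, v ∈ nS G ℓ D S c := by
    intro v
    by_cases hv : v ∈ S
    · exact Or.inl hv
    · obtain ⟨x, hx, p, hp⟩ := hAw v
      obtain ⟨B, hB, hBS⟩ := walk_bad (Ω := Unit) hℓ (fun _ => c) (k := 0) le_rfl
        (X := X) (fun u v _ _ _ => by simp [c]) p hx
      have hB0 : B = ∅ := by
        rw [zero_mul] at hB
        have : B.ncard = 0 := by exact_mod_cast le_antisymm hB (Nat.cast_nonneg _)
        exact (Set.ncard_eq_zero (Set.toFinite B)).1 this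
      obtain ⟨u, y, h1, h2, h3, h4⟩ := hBS () (by rw [hB0]; exact Set.notMem_empty _) S hst.sub hv
      exact Or.inr ⟨y, h2, u, h1, h3, by linarith [hMA v]⟩
  refine ⟨Unit, inferInstance, fun _ => 1, fun _ => nf G ℓ D S c f, ?_, ?_, ?_, ?_, ?_, ?_, ?_⟩
  · intro _
    exact zero_le_one
  · simp
  · intro _ v hv
    exact nf_in hv
  · intro _ v
    exact hupd.mem v (hall v)
  · intro _ v
    obtain ⟨q, hq⟩ := hupd.con v (hall v)
    exact ⟨q, fun z hz => (hq z hz).2⟩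
  · intro v hv
    have h1 := hupd.dist v (hall v)
    have h2 : 8 * D + 32 * b * A v ≤ Rf b D (A v) := le_max_right _ _
    have h3 : 0 ≤ b * A v := mul_nonneg hb0 (hA0 v)
    simp only [Finset.univ_unique, one_mul, Finset.sum_const, Finset.card_singleton, one_smul]
    linarith
  · intro u v hu hv hadj _ _
    have h1 := (upd_same (D := D) (ℓ := ℓ) (f := f) hu hv hadj (c := c) rfl (hall u)).2
    have h2 : 0 ≤ ℓ s(u, v) * Pf b D (min (A u) (A v)) :=
      mul_nonneg (hℓ _ hadj).le (Pf_nonneg hb0 hD (le_min (hA0 u) (hA0 v)))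
    simp only [Finset.univ_unique, one_mul, Finset.sum_const, Finset.card_singleton, one_smul]
    rw [h1, hd.self]
    exact h2

theorem iter {X : Set V} (hX : X.Nonempty) {d : V → V → ℝ} (hd : Mt G ℓ d)
    (hℓ : ∀ e ∈ G.edgeSet, 0 < ℓ e)
    {A : V → ℝ} (hA0 : ∀ v, 0 ≤ A v) (hAX : ∀ v, ∀ x ∈ X, A v ≤ d v x)
    (hAw : ∀ v, ∃ x ∈ X, ∃ p : G.Walk v x, len ℓ p ≤ 2 * A v)
    (hAl : ∀ u v, G.Adj u v → A v ≤ A u + ℓ s(u, v)) {b : ℝ} (hb : 2 ≤ b)
    {M : ℝ} (hM : ∀ u v, d u v ≤ M) (hMA : ∀ v, 2 * A v ≤ M)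
    (hcuts : ∀ D : ℝ, 0 < D → ∃ (Ω : Type) (_ : Fintype Ω) (_ : Nonempty Ω) (c : Ω → V → V),
      (∀ ω u v, u ∉ X → v ∉ X → ReachOff G X u v → c ω u = c ω v → d u v ≤ D) ∧
      ∀ u v, u ∉ X → v ∉ X → G.Adj u v →
        ({ω | c ω u ≠ c ω v}.ncard : ℝ) ≤ b / (2 * D) * Fintype.card Ω * ℓ s(u, v)) :
    ∀ (m : ℕ) (D : ℝ), 0 < D → M ≤ D * 2 ^ m → ∀ (S : Set V) (f : V → V),
      St G X d (2 * D) S f → ∃ (ι : Type) (_ : Fintype ι) (w : ι → ℝ) (π : ι → V → V),
        Out G ℓ X d A (Rf b D) (Pf b D) S f ι w π := by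
  intro m
  induction m with
  | zero =>
    intro D hD hMD S f hst
    exact base hX hd hℓ hA0 hAw hb hD hM hMA (by simpa using hMD) hst
  | succ m ih =>
    intro D hD hMD S f hst
    obtain ⟨Ω, _, _, c, h1, h2⟩ := hcuts D hD
    refine stage hd hℓ hA0 hAX hAw hAl hb hD c h1 h2 hst fun S' f' hst' => ?_
    refine ih (2 * D) (by linarith) (by rw [pow_succ] at hMD; linarith) S' f' ?_
    have : 2 * (2 * D) = 4 * D := by ring
    rw [this]
    exact hst'

/-! ### path metric -/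

theorem pd_bdd (hℓ : ∀ e ∈ G.edgeSet, 0 < ℓ e) (u v : V) :
    BddBelow (Set.range fun p : G.Walk u v => (p.edges.map ℓ).sum) :=
  ⟨0, by rintro _ ⟨p, rfl⟩; exact len_nonneg hℓ p⟩

theorem pd_le (hℓ : ∀ e ∈ G.edgeSet, 0 < ℓ e) {u v : V} (p : G.Walk u v) :
    pathDist G ℓ u v ≤ len ℓ p := ciInf_le (pd_bdd hℓ u v) p

theorem pd_mt (hc : G.Connected) (hℓ : ∀ e ∈ G.edgeSet, 0 < ℓ e) :
    Mt G ℓ (pathDist G ℓ) where
  nn := fun a b => by
    have : Nonempty (G.Walk a b) := hc.preconnected a b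
    exact le_ciInf fun p => len_nonneg hℓ p
  self := fun a => by
    have : Nonempty (G.Walk a a) := ⟨Walk.nil⟩
    refine le_antisymm ?_ (le_ciInf fun p => len_nonneg hℓ p)
    simpa [len] using pd_le hℓ (Walk.nil : G.Walk a a)
  comm := by
    have h : ∀ a b, pathDist G ℓ a b ≤ pathDist G ℓ b a := by
      intro a b
      have : Nonempty (G.Walk b a) := hc.preconnected b a
      refine le_ciInf fun p => ?_
      refine (pd_le hℓ p.reverse).trans (le_of_eq ?_)
      simp [len, Walk.edges_reverse, List.sum_reverse]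
    exact fun a b => le_antisymm (h a b) (h b a)
  tri := fun a b c => by
    have : Nonempty (G.Walk a b) := hc.preconnected a b
    have : Nonempty (G.Walk b c) := hc.preconnected b c
    have h : ∀ (p : G.Walk a b) (q : G.Walk b c),
        pathDist G ℓ a c ≤ len ℓ p + len ℓ q := by
      intro p q
      refine (pd_le hℓ (p.append q)).trans (le_of_eq ?_)
      simp [len, Walk.edges_append]
    have h2 : ∀ p : G.Walk a b, pathDist G ℓ a c - len ℓ p ≤ pathDist G ℓ b c :=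
      fun p => le_ciInf fun q => by
        have := h p q
        show _ ≤ len ℓ q
        linarith
    have h3 : pathDist G ℓ a c - pathDist G ℓ b c ≤ pathDist G ℓ a b :=
      le_ciInf fun p => by
        have := h2 p
        show _ ≤ len ℓ p
        linarith
    linarith
  adj := fun a b h => by
    simpa [len] using pd_le hℓ (Walk.cons h Walk.nil)

theorem len_ge (hℓ : ∀ e ∈ G.edgeSet, 0 < ℓ e) {D0 : ℝ} (hD0e : ∀ e ∈ G.edgeSet, D0 ≤ ℓ e)
    {u v : V} (huv : u ≠ v) (p : G.Walk u v) : D0 ≤ len ℓ p := by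
  cases p with
  | nil => exact absurd rfl huv
  | cons h p =>
    rw [len_cons]
    have h1 := hD0e s(_, _) h
    have h2 := len_nonneg hℓ p
    linarith

theorem retr [Finite V] (hc : G.Connected) (hℓ : ∀ e ∈ G.edgeSet, 0 < ℓ e) {X : Set V}
    (hX : X.Nonempty)
    (hcuts : ∀ D ε : ℝ, 0 < D → 0 < ε →
      ∃ (Ω : Type) (_ : Fintype Ω) (_ : Nonempty Ω) (c : Ω → V → V),
      (∀ ω u v, u ∉ X → v ∉ X → ReachOff G X u v → c ω u = c ω v → pathDist G ℓ u v ≤ D) ∧
      ∀ u v, u ∉ X → v ∉ X → G.Adj u v →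
        (({ω | c ω u ≠ c ω v}.ncard : ℕ) : ℝ) ≤
          (156 * ℓ s(u, v) / D + ε) * Fintype.card Ω) :
    ∃ (ι : Type) (_ : Fintype ι) (w : ι → ℝ) (π : ι → V → V), (∀ i, 0 ≤ w i) ∧ ∑ i, w i = 1 ∧
      (∀ i v, π i v ∈ X) ∧ (∀ i, ∀ x ∈ X, π i x = x) ∧
      (∀ i v, ∃ q : G.Walk v (π i v), ∀ z ∈ q.support, π i z = π i v) ∧
      ∀ u v, G.Adj u v → ∑ i, w i * pathDist G ℓ (π i u) (π i v) ≤
        3000 * 314 * 314 * ℓ s(u, v) := by
  classical
  set d := pathDist G ℓ with hdd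
  have hd : Mt G ℓ d := pd_mt hc hℓ
  -- the smallest edge
  obtain ⟨D0, hD0, hD0e⟩ : ∃ D0 : ℝ, 0 < D0 ∧ ∀ e ∈ G.edgeSet, D0 ≤ ℓ e := by
    by_cases h : G.edgeSet.Nonempty
    · obtain ⟨e, he, hmin⟩ := Set.exists_min_image G.edgeSet ℓ (Set.toFinite _) h
      exact ⟨ℓ e, hℓ e he, hmin⟩
    · exact ⟨1, one_pos, fun e he => absurd ⟨e, he⟩ h⟩
  -- nearest point of X
  have hnear : ∀ v, ∃ x ∈ X, ∀ x' ∈ X, d v x ≤ d v x' := fun v =>
    Set.exists_min_image X (d v) (Set.toFinite _) hX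
  choose xv hxv hxmin using hnear
  let A : V → ℝ := fun v => d v (xv v)
  have hA0 : ∀ v, 0 ≤ A v := fun v => hd.nn _ _
  have hAX : ∀ v, ∀ x ∈ X, A v ≤ d v x := fun v x hx => hxmin v x hx
  have hAw : ∀ v, ∃ x ∈ X, ∃ p : G.Walk v x, len ℓ p ≤ 2 * A v := by
    intro v
    by_cases hv : v ∈ X
    · refine ⟨v, hv, Walk.nil, ?_⟩
      have := hA0 v
      simp only [len, Walk.edges_nil, List.map_nil, List.sum_nil]
      linarith
    · have : Nonempty (G.Walk v (xv v)) := hc.preconnected v (xv v)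
      have hpos : D0 ≤ A v := by
        refine le_ciInf fun p => ?_
        have hne : v ≠ xv v := fun h => hv (by rw [h]; exact hxv v)
        exact len_ge hℓ hD0e hne p
      have hlt : (⨅ p : G.Walk v (xv v), (p.edges.map ℓ).sum) < 2 * A v := by
        show A v < 2 * A v
        linarith
      obtain ⟨p, hp⟩ := exists_lt_of_ciInf_lt hlt
      exact ⟨xv v, hxv v, p, hp.le⟩
  have hAl : ∀ u v, G.Adj u v → A v ≤ A u + ℓ s(u, v) := by
    intro u v h
    have h1 := hAX v (xv u) (hxv u)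
    have h2 := hd.tri v u (xv u)
    have h3 := hd.comm v u
    have h4 := hd.adj u v h
    show A v ≤ d u (xv u) + ℓ s(u, v)
    linarith
  obtain ⟨M, hM⟩ : ∃ M, ∀ u v, d u v ≤ M := by
    obtain ⟨M, hM⟩ := (Set.finite_range fun p : V × V => d p.1 p.2).bddAbove
    exact ⟨M, fun u v => hM ⟨(u, v), rfl⟩⟩
  have hM0 : 0 ≤ M := by
    obtain ⟨x, -⟩ := hX
    exact (hd.nn x x).trans (hM x x)
  obtain ⟨m, hm⟩ := pow_unbounded_of_one_lt (2 * M / D0) (one_lt_two (α := ℝ))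
  have hcuts' : ∀ D : ℝ, 0 < D →
      ∃ (Ω : Type) (_ : Fintype Ω) (_ : Nonempty Ω) (c : Ω → V → V),
      (∀ ω u v, u ∉ X → v ∉ X → ReachOff G X u v → c ω u = c ω v → d u v ≤ D) ∧
      ∀ u v, u ∉ X → v ∉ X → G.Adj u v →
        ({ω | c ω u ≠ c ω v}.ncard : ℝ) ≤ 314 / (2 * D) * Fintype.card Ω * ℓ s(u, v) := by
    intro D hD
    obtain ⟨Ω, i1, i2, c, h1, h2⟩ := hcuts D (D0 / D) hD (by positivity)
    refine ⟨Ω, i1, i2, c, h1, fun u v hu hv hadj => (h2 u v hu hv hadj).trans ?_⟩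
    have h3 : D0 / D ≤ ℓ s(u, v) / D := div_le_div_of_nonneg_right (hD0e _ hadj) hD.le
    have h4 : (156 * ℓ s(u, v) / D + D0 / D) * Fintype.card Ω ≤
        (156 * ℓ s(u, v) / D + ℓ s(u, v) / D) * Fintype.card Ω := by gcongr
    refine h4.trans (le_of_eq ?_)
    field_simp
    ring
  have hst : St G X d (2 * D0) X id :=
    ⟨subset_rfl, fun _ _ => rfl, fun v hv => hv, fun v hv => ⟨Walk.nil, fun z hz => by
      rw [Walk.support_nil, List.mem_singleton] at hz
      subst hz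
      exact ⟨hv, rfl⟩⟩, fun v _ => by
      show d v v ≤ _
      rw [hd.self]
      linarith⟩
  obtain ⟨ι, inst, w, π, hout⟩ := iter hX hd hℓ hA0 hAX hAw hAl (b := 314) (by norm_num)
    (M := 2 * M) (fun u v => by have := hM u v; linarith)
    (fun v => by have := hM v (xv v); show 2 * d v (xv v) ≤ _; linarith) hcuts' m D0 hD0
    (by rw [div_lt_iff₀ hD0] at hm; linarith) X id hst
  have hfix : ∀ i, ∀ x ∈ X, π i x = x := fun i x hx => hout.ext i x hx
  refine ⟨ι, inst, w, π, hout.nn, hout.one, hout.mem, hfix, hout.con, fun u v hadj => ?_⟩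
  have hl : 0 < ℓ s(u, v) := hℓ _ hadj
  by_cases hcase : ℓ s(u, v) ≤ A u ∧ ℓ s(u, v) ≤ A v
  · have hAx : ∀ x ∈ X, A x ≤ 0 := fun x hx => by
      have := hAX x x hx
      rwa [hd.self] at this
    have hu : u ∉ X := fun h => by have := hAx u h; linarith [hcase.1]
    have hv : v ∉ X := fun h => by have := hAx v h; linarith [hcase.2]
    refine (hout.pay u v hu hv hadj hcase.1 hcase.2).trans ?_
    have h1 : Pf 314 D0 (min (A u) (A v)) ≤ 314 * (88 + 656 * (4 * 314)) := by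
      unfold Pf
      have := min_le_right (314 * min (A u) (A v) / D0) (4 * (314 : ℝ))
      linarith
    nlinarith [mul_le_mul_of_nonneg_left h1 hl.le]
  · have hr : ∀ v, ∑ j, w j * d v (π j v) ≤ 8 * D0 + 80 * 314 * A v := by
      intro v
      by_cases hv : v ∈ X
      · have : ∑ j, w j * d v (π j v) = 0 := by
          refine Finset.sum_eq_zero fun j _ => ?_
          rw [hfix j v hv, hd.self, mul_zero]
        have h2 := hA0 v
        linarith
      · exact (hout.rad v hv).trans (Rf_le (by norm_num) hD0 (hA0 v))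
    have hAA : A u + A v ≤ 3 * ℓ s(u, v) := by
      have h1 := hAl u v hadj
      have h2 := hAl v u hadj.symm
      rw [Sym2.eq_swap] at h2
      by_cases h3 : ℓ s(u, v) ≤ A u
      · have h4 : ¬ ℓ s(u, v) ≤ A v := fun h => hcase ⟨h3, h⟩
        linarith
      · linarith
    have h1 : ∑ j, w j * d (π j u) (π j v) ≤
        ∑ j, (w j * d u (π j u) + w j * ℓ s(u, v) + w j * d v (π j v)) := by
      refine Finset.sum_le_sum fun j _ => ?_
      rw [← mul_add, ← mul_add]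
      apply mul_le_mul_of_nonneg_left _ (hout.nn j)
      have h1 := hd.tri (π j u) u (π j v)
      have h2 := hd.tri u v (π j v)
      have h3 := hd.comm (π j u) u
      have h4 := hd.adj u v hadj
      linarith
    rw [Finset.sum_add_distrib, Finset.sum_add_distrib, ← Finset.sum_mul, hout.one, one_mul] at h1
    have h2 := hr u
    have h3 := hr v
    have h4 := hD0e s(u, v) hadj
    linarith

end Vale.Agent.P235.ST.H200R
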