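import Vale.Agent.P235.ST.H200.Piece

/-! P235, (ST) O(1), part B, row r11 `stretch` (helper200). -/

namespace Vale.Agent.P235.STO.H200

open SimpleGraph
open H119 (reach_of_walk bi_of_reach D_T D_lip D_M)
open H188 (nxt_scale uns_le nxt_le nxt_attain)
open H611 (cost_append cost_reverse vert hop_cost)
open H317 (Stretch stretches_of)

variable {V : Type} (W : LWorld V)

theorem d_le_L {p a b : V} (hp : p ∈ W.N) (ha : a ∈ W.L p) (hb : b ∈ W.L p) :
    W.d a b ≤ |(W.u a : ℝ) - W.u b| := by
  rcases le_total (W.u a) (W.u b) with h | h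
  · obtain ⟨q, hq, -⟩ := W.L_path p hp a ha b hb h
    have h1 := d_le_length W q
    have h2 : (q.length : ℝ) = W.u b - W.u a := by exact_mod_cast hq
    have h3 := neg_abs_le ((W.u a : ℝ) - W.u b)
    linarith
  · obtain ⟨q, hq, -⟩ := W.L_path p hp b hb a ha h
    have h1 := d_le_length W q
    have h2 : (q.length : ℝ) = W.u a - W.u b := by exact_mod_cast hq
    have h3 := le_abs_self ((W.u a : ℝ) - W.u b)
    rw [d_comm W b a] at h1
    linarith

theorem near_walk {x y v : V} (q : W.G.Walk x y) (hv : v ∈ q.support) :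
    |W.u v - W.u x| ≤ (q.length : ℤ) := by
  classical
  have h1 := H119.abs_u_le W (q.takeUntil v hv)
  have h2 := q.length_takeUntil_le_length hv
  rw [abs_sub_comm]
  exact h1.trans (by exact_mod_cast h2)

theorem exists_geo (x y : V) : ∃ q : W.G.Walk x y, (q.length : ℝ) = W.d x y := by
  obtain ⟨q, hq⟩ := W.conn.exists_walk_length_eq_dist x y
  exact ⟨q, by unfold LWorld.d; exact_mod_cast hq⟩

theorem abs_u_le_d (x y : V) : |(W.u x : ℝ) - W.u y| ≤ W.d x y := by
  obtain ⟨q, hq⟩ := exists_geo W x y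
  have h1 := H119.abs_u_le W q
  rw [← hq]
  exact_mod_cast h1

theorem shift {k m : ℕ} {a v : V} (h1 : 6 * 2 ^ k ≤ W.pos k m a) (h2 : W.pos k m a ≤ 9 * 2 ^ k)
    (h : |W.u v - W.u a| ≤ 2 ^ k) :
    W.bi k m v = W.bi k m a ∧ W.pos k m v = W.pos k m a + (W.u v - W.u a) := by
  have hK : (0 : ℤ) < 2 ^ k := by positivity
  have h3 := Int.emod_add_mul_ediv (W.u a + m * 2 ^ k) (th k)
  have h4 : W.pos k m a + th k * W.bi k m a = W.u a + m * 2 ^ k := h3
  have hab := abs_le.1 h
  have key : (W.u v + m * 2 ^ k) / th k = W.bi k m a ∧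
      (W.u v + m * 2 ^ k) % th k = W.pos k m a + (W.u v - W.u a) := by
    rw [Int.ediv_emod_unique (by unfold th; positivity)]
    refine ⟨by linarith, by linarith [hab.1], ?_⟩
    unfold th
    linarith [hab.2]
  exact key

section main

variable [Fintype V]

/-- what an unserved centre near `a` gives -/
theorem centre {ρ : V → ℝ} (hρ : W.Scale ρ) {p a b : V} {k m : ℕ} (g : W.G.Walk a b)
    (hr : W.Reg ρ p k m g) (hpos : 0 < W.nxt ρ a) :
    ∃ z y, z ∈ W.N ∧ y ∈ W.N ∧ W.u z = W.u y ∧ W.idx z ≤ W.idx y ∧ 0 < W.d z y ∧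
      W.nxt ρ a ≤ W.d z y ∧ W.d a z ≤ kap * W.d z y ∧ W.d z y ≤ 32 * d1 * ρ p ∧
      (W.Bg k m).Reachable a y ∧
      (W.D k m y : ℝ) ≤ W.D k m a + (kap + cp) * W.d z y := by
  obtain ⟨z, y, hu, he⟩ := nxt_attain W hpos
  have ht := uns_le W hρ hu
  obtain ⟨hz, hy, huz, hi, hr0, h2t, hns⟩ := hu
  set t := W.d z y with htdef
  have ht0 : 0 < t := by
    refine lt_of_lt_of_le ?_ hr0
    unfold r0; positivity
  have hk0 : (0 : ℝ) < kap := by unfold kap; positivity
  have hdz : 0 ≤ W.d a z := d_nonneg W a z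
  have hdz' : W.d a z / kap < t := by linarith
  have hdz2 : W.d a z ≤ kap * t := by
    rw [div_lt_iff₀ hk0] at hdz'
    linarith
  have hn : W.nxt ρ a ≤ t := by
    have : 0 ≤ W.d a z / kap := div_nonneg hdz hk0.le
    linarith
  -- comparison of scales
  have hpa := hr.ball a g.start_mem_support
  have hpz : W.d p z ≤ kap * ρ p / 4 + 1 + kap * t := by
    have := d_tri W p a z
    linarith
  have hlip := hρ.lip p z
  have hdiv : W.d p z / kap ≤ ρ p / 4 + 2 ^ 22 + t := by
    rw [div_le_iff₀ hk0]
    refine hpz.trans (le_of_eq ?_)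
    unfold kap
    ring
  have habs := abs_le.1 (hlip.trans hdiv)
  have hbig := hr.big
  have ht' : t ≤ ρ z / 2 ^ 96 := by
    refine ht.trans (le_of_eq ?_)
    unfold d1
    ring
  have hup : ρ z ≤ 3 / 2 * ρ p := by
    norm_num at ht' habs hbig ⊢
    linarith [habs.1]
  have hlo : 2 / 3 * ρ p ≤ ρ z := by
    norm_num at ht' habs hbig ⊢
    linarith [habs.2]
  have hd1 : (0 : ℝ) < d1 := by unfold d1; positivity
  have hρp : 0 ≤ ρ p := hρ.nonneg p
  have hdl : (0 : ℝ) < dl := by unfold dl; positivity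
  have hin : inList (ρ z) k := by
    constructor
    · have h1 : d1 * ρ z ≤ d1 * (3 / 2 * ρ p) := mul_le_mul_of_nonneg_left hup hd1.le
      have h2 := hr.lo
      nlinarith [mul_nonneg hd1.le hρp]
    · have h1 : dl * (2 / 3 * ρ p) ≤ dl * ρ z := mul_le_mul_of_nonneg_left hlo hdl.le
      have h2 := hr.hi
      linarith
  have htk : t ≤ 32 * d1 * ρ p := by
    have h1 : 16 * d1 * ρ z ≤ 16 * d1 * (3 / 2 * ρ p) :=
      mul_le_mul_of_nonneg_left hup (by positivity)
    nlinarith [mul_nonneg hd1.le hρp]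
  -- the position of `z`
  have hth : (th k : ℝ) = 16 * 2 ^ k := by unfold th; push_cast; ring
  have hsmall : kap * t ≤ 2 ^ k := by
    have h1 : t ≤ 16 * 2 ^ k := by
      have := hr.lo
      rw [hth] at this
      linarith
    have h2 : kap * t ≤ 1 / 16 * t := mul_le_mul_of_nonneg_right (by unfold kap; norm_num) ht0.le
    linarith
  obtain ⟨q, hq⟩ := exists_geo W a z
  have hband := hr.band a g.start_mem_support
  have hshift : ∀ v ∈ q.support, W.bi k m v = W.bi k m a ∧
      W.pos k m v = W.pos k m a + (W.u v - W.u a) := by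
    intro v hv
    refine shift W hband.1 hband.2 ?_
    have h1 := near_walk W q hv
    have h2 : (q.length : ℝ) ≤ 2 ^ k := by rw [hq]; linarith
    have h3 : (q.length : ℤ) ≤ 2 ^ k := by exact_mod_cast h2
    exact h1.trans h3
  have hreach := reach_of_walk W k m q fun v hv => (hshift v hv).1
  have hmid : W.mid k m z := by
    have h1 := (hshift z q.end_mem_support).2
    have h2 := near_walk W q q.end_mem_support
    have h3 : (q.length : ℝ) ≤ 2 ^ k := by rw [hq]; linarith
    have h4 : (q.length : ℤ) ≤ 2 ^ k := by exact_mod_cast h3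
    have h5 := abs_le.1 (h2.trans h4)
    unfold LWorld.mid
    rw [h1]
    have hK : (0 : ℤ) < 2 ^ k := by positivity
    constructor
    · linarith [h5.1, hband.1]
    · linarith [h5.2, hband.2]
  have hserv := hns k m hr.m16 hin
  have hserv' : (W.Bg k m).Reachable z y ∧ (W.D k m y : ℝ) - W.D k m z < cp * t := by
    by_contra hcon
    apply hserv
    refine ⟨hmid, ?_⟩
    by_cases hre : (W.Bg k m).Reachable z y
    · right
      by_contra h6
      exact hcon ⟨hre, not_le.1 h6⟩
    · exact Or.inl hre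
  have hDz : (W.D k m z : ℝ) ≤ W.D k m a + kap * t := by
    have h1 := D_lip W k m hreach.1
    have h2 : (W.D k m z : ℝ) ≤ W.D k m a + (W.Bg k m).dist a z := by exact_mod_cast h1
    have h3 : ((W.Bg k m).dist a z : ℝ) ≤ q.length := by exact_mod_cast hreach.2
    linarith
  refine ⟨z, y, hz, hy, huz, hi, ht0, hn, hdz2, htk, hreach.1.trans hserv'.1, ?_⟩
  linarith [hserv'.2]

theorem stretch : Stretch W := by
  intro ρ w hρ hw p a b k m g hg hr ha hb hne
  have hreg : ∀ {c : V} (g1 : W.G.Walk a c), (∀ v ∈ g1.support, v ∈ g.support) →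
      (W.Bg k m).Reachable a c ∧ (W.Bg k m).dist a c ≤ g1.length := fun g1 h =>
    reach_of_walk W k m g1 fun v hv => hr.same v (h v hv)
  by_cases hS : W.nxt ρ a ≤ 4 / kap
  · -- the next lined vertex
    right
    cases g with
    | nil => exact absurd rfl hne
    | @cons _ x _ hadj g' =>
      obtain ⟨c, g1, g2, h1, hc, h3⟩ := first_cut (· ∈ W.N) g' ⟨b, g'.end_mem_support, hb⟩
      have hg' : (Walk.cons hadj g1).IsPath := by
        have : Walk.cons hadj g' = (Walk.cons hadj g1).append g2 := by rw [h1]; rfl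
        rw [this] at hg
        exact hg.of_append_left
      refine ⟨c, Walk.cons hadj g1, g2, by rw [h1]; rfl, by simp, hc, ?_⟩
      have hsub : ∀ v ∈ (Walk.cons hadj g1).support, v ∈ (Walk.cons hadj g').support := by
        intro v hv
        rw [Walk.support_cons, List.mem_cons] at hv ⊢
        refine hv.imp id fun hv => ?_
        rw [h1, Walk.mem_support_append_iff]
        exact Or.inl hv
      have h4 := hreg _ hsub
      have h5 := D_lip W k m h4.1
      have h6 := hop_cost W (nxt_scale W ρ) hw (Walk.cons hadj g1) hg' (fun v hv h7 h8 => by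
        rw [Walk.support_cons, List.mem_cons] at hv
        rcases hv with rfl | hv
        · exact absurd rfl h7
        · exact h3 v hv h8) hS
      have h7 : (W.D k m c : ℝ) ≤ W.D k m a + (W.Bg k m).dist a c := by exact_mod_cast h5
      have h8 : ((W.Bg k m).dist a c : ℝ) ≤ ((Walk.cons hadj g1).length : ℝ) := by
        exact_mod_cast h4.2
      linarith
  -- a centre
  rw [not_le] at hS
  have hpos : 0 < W.nxt ρ a := lt_trans (by unfold kap; positivity) hS
  obtain ⟨z, y, hz, hy, huz, hi, ht0, hn, hdz, htk, hay, hDy⟩ := centre W hρ g hr hpos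
  set t := W.d z y with htdef
  have huzr : (W.u z : ℝ) = W.u y := by exact_mod_cast huz
  have huaz : |(W.u a : ℝ) - W.u z| ≤ kap * t := (abs_u_le_d W a z).trans hdz
  have hkt : kap * t ≤ 1 / 2 ^ 22 * t := le_of_eq (by unfold kap; ring)
  -- points of `L y` are far
  have hfar : ∀ v ∈ W.L y, W.d z v ≤ kap * t → False := by
    intro v hv h1
    have h2 := d_le_L W hy hv (W.mem_L y hy)
    have h3 := abs_u_le_d W z v
    rw [abs_sub_comm, huzr] at h3
    have h4 := d_tri W z v y
    norm_num at hkt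
    linarith
  have haL : a ∉ W.L y := fun h => hfar a h (by rw [d_comm]; exact hdz)
  have hia : W.idx a ≤ W.idx y := by
    by_contra h
    rw [not_le] at h
    obtain ⟨q, hq⟩ := exists_geo W z a
    obtain ⟨v, hv, hvL⟩ := W.sep y hy z hz a ha hi h.le q
    classical
    have h1 := d_le_length W (q.takeUntil v hv)
    have h2 : ((q.takeUntil v hv).length : ℝ) ≤ q.length := by
      exact_mod_cast q.length_takeUntil_le_length hv
    refine hfar v hvL ?_
    rw [d_comm] at hdz
    linarith
  have hcp : cp = 1 / 2 ^ 21 := rfl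
  have hbb : bb = 1 / 2 ^ 14 := rfl
  have hkap : kap = 1 / 2 ^ 22 := rfl
  -- the stop
  by_cases hex : ∃ v ∈ g.support, v ∈ W.L y ∨ bb * t ≤ |(W.u v : ℝ) - W.u z|
  swap
  · -- the end
    left
    push Not at hex
    have hib : W.idx b ≤ W.idx y := by
      by_contra h
      rw [not_le] at h
      obtain ⟨v, hv, hvL⟩ := W.sep y hy a ha b hb hia h.le g
      exact (hex v hv).1 hvL
    have hreach := (hreg g fun v hv => hv).1
    have h1 := D_M W k m hb hy (hreach.symm.trans hay) hib
    have h2 : (W.D k m b : ℝ) ≤ W.D k m y + |(W.u b : ℝ) - W.u y| := by exact_mod_cast h1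
    have h3 := (hex b g.end_mem_support).2
    rw [← huzr] at h2
    have h4 := cost_nonneg w g
    rw [hcp, hkap] at hDy
    rw [hbb] at h3
    norm_num at hDy h3
    linarith
  right
  obtain ⟨x, g1, g2, h1, hx, hfirst⟩ := first_cut _ g hex
  obtain ⟨c, g3, g4, h2, hc, hN⟩ := first_cut (· ∈ W.N) g2 ⟨b, g2.end_mem_support, hb⟩
  have hxa : a ≠ x := by
    rintro rfl
    rcases hx with h3 | h3
    · exact haL h3
    · rw [hbb] at h3
      norm_num at h3 hkt
      linarith
  have hsub : ∀ v ∈ (g1.append g3).support, v ∈ g.support := by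
    intro v hv
    rw [Walk.mem_support_append_iff] at hv
    rw [h1, Walk.mem_support_append_iff]
    refine hv.imp id fun hv => ?_
    rw [h2, Walk.mem_support_append_iff]
    exact Or.inl hv
  refine ⟨c, g1.append g3, g4, by rw [h1, h2, Walk.append_assoc], ?_, hc, ?_⟩
  · rw [Walk.length_append]
    have : 0 < g1.length := by
      rcases Nat.eq_zero_or_pos g1.length with h3 | h3
      · exact absurd (Walk.eq_of_length_eq_zero h3) hxa
      · exact h3
    omega
  -- points of `L y` on the stretch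
  have hLc : ∀ v ∈ (g1.append g3).support, v ∈ W.L y → c ∈ W.L y := by
    intro v hv hvL
    have hvN := (W.L_sub y hy v hvL).1
    rw [Walk.mem_support_append_iff] at hv
    have hin : v ∈ g3.support := by
      rcases hv with hv | hv
      · have hvx : v = x := by
          by_contra hne'
          exact hfirst v hv hne' (Or.inl hvL)
        rw [hvx]
        exact g3.start_mem_support
      · exact hv
    have hvc : v = c := by
      by_contra hne'
      exact hN v hin hne' hvN
    rwa [← hvc]
  have hic : W.idx c ≤ W.idx y := by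
    by_contra h
    rw [not_le] at h
    obtain ⟨v, hv, hvL⟩ := W.sep y hy a ha c hc hia h.le (g1.append g3)
    exact absurd (W.L_sub y hy c (hLc v hv hvL)).2 (not_le.2 h)
  have hreach := (hreg (g1.append g3) hsub).1
  have h3 := D_M W k m hc hy (hreach.symm.trans hay) hic
  have h4 : (W.D k m c : ℝ) ≤ W.D k m y + |(W.u c : ℝ) - W.u z| := by
    rw [huzr]
    exact_mod_cast h3
  have hc1 : cost w g1 ≤ cost w (g1.append g3) := by
    rw [cost_append]
    have := cost_nonneg w g3
    linarith
  have hn' : 8 * e1 * W.nxt ρ a ≤ 8 * e1 * t :=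
    mul_le_mul_of_nonneg_left hn (by unfold e1; positivity)
  have he1 : e1 = 1 / 2 ^ 120 := rfl
  by_cases hdev : bb * t ≤ |(W.u x : ℝ) - W.u z|
  · -- beta
    have h5 := vert W (nxt_scale W ρ) hw g1
    have h6 := vert W (nxt_scale W ρ) hw (g1.append g3)
    have h7 : |(W.u x : ℝ) - W.u z| ≤ |(W.u x : ℝ) - W.u a| + |(W.u a : ℝ) - W.u z| :=
      abs_sub_le _ _ _
    have h8 : |(W.u c : ℝ) - W.u z| ≤ |(W.u c : ℝ) - W.u a| + |(W.u a : ℝ) - W.u z| :=
      abs_sub_le _ _ _
    rw [hbb] at hdev
    rw [he1] at hn' h5 h6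
    rw [hcp, hkap] at hDy
    norm_num at hdev hn' h5 h6 hDy hkt ⊢
    linarith
  · -- alpha
    have hxL : x ∈ W.L y := hx.resolve_right hdev
    have hcL : c ∈ W.L y := hLc x (by
      rw [Walk.mem_support_append_iff]; exact Or.inl g1.end_mem_support) hxL
    have hxc : x = c := by
      by_contra hne'
      exact hN x g3.start_mem_support hne' (W.L_sub y hy x hxL).1
    rw [not_le] at hdev
    rw [hxc] at hdev
    have h5 := d_le_L W hy hcL (W.mem_L y hy)
    rw [← huzr] at h5
    have h6 := d_tri W z a y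
    have h7 := d_tri W a c y
    rw [d_comm W z a] at h6
    have hlb := hw.lb a c (g1.append g3) (by
      have h8 : C1 * d1 * W.nxt ρ a ≤ C1 * d1 * t :=
        mul_le_mul_of_nonneg_left hn (by unfold C1 d1; positivity)
      refine h8.trans ?_
      unfold C1 d1
      rw [hbb] at hdev
      norm_num at hdev hkt ⊢
      linarith)
    unfold c2 at hlb
    rw [hcp, hkap] at hDy
    rw [hbb] at hdev
    norm_num at hdev hlb hDy hkt ⊢
    linarith

end main

end Vale.Agent.P235.STO.H200
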